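import Crest.Agent.N221.Fr.Om
import Crest.Agent.N221.A1.Bas

/-! Row 221, block Fr: the three basic frames of a pair (`PD.Frs`, `PD.IsPair.frs`). -/

set_option autoImplicit false
set_option linter.unusedSectionVars false
set_option maxSynthPendingDepth 3

open Set Filter Topology Module
open scoped ContDiff

noncomputable section

namespace Crest.Agent.N221

open SB Fr

/-- two `Ω`-orthogonal families, each basic along the other, commute -/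
lemma Fr.comm_of_basic {E F G : Type} [NormedAddCommGroup E] [NormedSpace ℝ E]
    [NormedAddCommGroup F] [NormedSpace ℝ F] [NormedAddCommGroup G] [NormedSpace ℝ G]
    [FiniteDimensional ℝ E] {Ω : E →L[ℝ] E →L[ℝ] ℝ} (sk : ∀ v w, Ω v w = -Ω w v)
    (nd : ∀ v, (∀ w, Ω v w = 0) → v = 0) {X : E → F →L[ℝ] E} {Z : E → G →L[ℝ] E} {z : E}
    (hX : DifferentiableAt ℝ X z) (hZ : DifferentiableAt ℝ Z z) {a : F} {b : G}
    (h0 : ∀ᶠ y in 𝓝 z, Ω (Z y b) (X y a) = 0)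
    (h1 : ∀ w, Ω (fderiv ℝ Z z (X z a) b) w = Ω (fderiv ℝ Z z w b) (X z a))
    (h2 : ∀ w, Ω (fderiv ℝ X z (Z z b) a) w = Ω (fderiv ℝ X z w a) (Z z b)) :
    fderiv ℝ Z z (X z a) b = fderiv ℝ X z (Z z b) a := by
  refine sub_eq_zero.1 (nd _ fun w => ?_)
  have d := (Ω.hasFDerivAt.comp z (hZ.hasFDerivAt.clm_apply (hasFDerivAt_const b z))).clm_apply
    (hX.hasFDerivAt.clm_apply (hasFDerivAt_const a z))
  have e := congrArg (fun L => L w) ((d.congr_of_eventuallyEq (f₁ := fun _ => (0 : ℝ))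
    (h0.mono fun y hy => hy.symm)).unique (hasFDerivAt_const _ _))
  simp at e
  rw [map_sub, sub_apply, h1, h2, sk _ (Z z b)]
  linarith

namespace PD

variable {m : ℕ} (P : PD m)

/-- three basic frames on one box: `io` of `I`, `ze` of `Y_s ⊆ I ⊆ E^s`, `nu` of `Y_u ⊆ E^u` -/
structure Frs (U : Set (ZZ m)) {r k l : ℕ} (io : ZZ m → (Fin r → ℝ) →L[ℝ] ZZ m)
    (ze : ZZ m → (Fin k → ℝ) →L[ℝ] ZZ m) (nu : ZZ m → (Fin l → ℝ) →L[ℝ] ZZ m) : Prop where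
  op : IsOpen U
  ne : U.Nonempty
  sub : U ⊆ P.W
  sio : ContDiffOn ℝ ∞ io U
  sze : ContDiffOn ℝ ∞ ze U
  snu : ContDiffOn ℝ ∞ nu U
  iio : ∀ z ∈ U, Function.Injective (io z)
  ize : ∀ z ∈ U, Function.Injective (ze z)
  inu : ∀ z ∈ U, Function.Injective (nu z)
  k0 : 0 < k
  l0 : 0 < l
  ze_io : ∀ z ∈ U, ∀ b, ∃ a, ze z b = io z a
  io_E : ∀ z ∈ U, ∀ a, io z a ∈ P.E false z
  nu_E : ∀ z ∈ U, ∀ c, nu z c ∈ P.E true z
  orth : ∀ z ∈ U, ∀ b c, om (ze z b) (nu z c) = 0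
  mio : ∀ z ∈ U, ∀ T, P.R z T false → T z ∈ U → ∀ a, ∃ a', fderiv ℝ T z (io z a) = io (T z) a'
  mze : ∀ z ∈ U, ∀ T, P.R z T false → T z ∈ U → ∀ b, ∃ b', fderiv ℝ T z (ze z b) = ze (T z) b'
  mnu : ∀ z ∈ U, ∀ T, P.R z T false → T z ∈ U → ∀ c, ∃ c', fderiv ℝ T z (nu z c) = nu (T z) c'
  bio : ∀ z ∈ U, ∀ a a' w, om (fderiv ℝ io z (io z a) a') w = om (fderiv ℝ io z w a') (io z a)
  bze : ∀ z ∈ U, ∀ c b w, om (fderiv ℝ ze z (nu z c) b) w = om (fderiv ℝ ze z w b) (nu z c)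
  bnu : ∀ z ∈ U, ∀ b c w, om (fderiv ℝ nu z (ze z b) c) w = om (fderiv ℝ nu z w c) (ze z b)
  cio : ∀ z ∈ U, ∀ a a', fderiv ℝ io z (io z a) a' = fderiv ℝ io z (io z a') a
  czn : ∀ z ∈ U, ∀ c b, fderiv ℝ ze z (nu z c) b = fderiv ℝ nu z (ze z b) c

variable {P}

lemma omL_sk (v w : ZZ m) : omL m v w = -omL m w v := by simp [om]

lemma omL_nd (v : ZZ m) (h : ∀ w, omL m v w = 0) : v = 0 := om_nd fun w => by simpa using h w

lemma Ok.sys (h : P.Ok) (i : Bool) : Sys (omL m) P.W (P.E i) fun z T => P.R z T false where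
  sk := omL_sk
  nd := omL_nd
  op := h.isOpen
  lag z hz v := ⟨fun hv w hw => by simpa using h.lag hz hw hv, fun hv => h.mem_of_om hz fun w hw => by
    have := hv w hw
    rw [omL_sk] at this
    simpa using this⟩
  leaf z hz := by
    obtain ⟨F, h1, h2, h3⟩ := h.leaf i z hz
    have d : ∀ x : ZZ m, HasFDerivAt F (P.S i (x.1, F x.1)) x.1 →
        ∀ ξ : ZZ m, fderiv ℝ (fun x : ZZ m => (x.1, F x.1)) x ξ = (ξ.1, P.S i (x.1, F x.1) ξ.1) :=
      fun x hx ξ => by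
        rw [show fderiv ℝ (fun x : ZZ m => (x.1, F x.1)) x = _ from
          (hasFDerivAt_fst.prodMk (hx.comp x hasFDerivAt_fst)).fderiv]
        rfl
    refine ⟨fun x => (x.1, F x.1), (contDiff_fst.prodMk ((h1.of_le two_le').comp
      contDiff_fst)).contDiffAt, by simp [h2], fun v hv => ?_, ?_⟩
    · rw [d z h3.self_of_nhds, h2]
      exact Prod.ext rfl (mem_E.1 hv).symm
    · filter_upwards [continuousAt_fst.eventually h3] with x hx ξ
      rw [d x hx]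
      exact mk_mem_E _
  smooth z T hT := h.smooth z T _ hT
  ev z T hT := h.ev z T _ hT
  inv z T hT := h.inv z T _ hT
  sp z T hT v w := by simpa using h.sp z T _ hT v w

theorem IsPair.frs (h : P.Ok) {O : Set (ZZ m)} {Y : Bool → ZZ m → Submodule ℝ (ZZ m)}
    (hY : P.IsPair O Y) : ∃ (U : Set (ZZ m)) (r k l : ℕ) (io : ZZ m → (Fin r → ℝ) →L[ℝ] ZZ m)
      (ze : ZZ m → (Fin k → ℝ) →L[ℝ] ZZ m) (nu : ZZ m → (Fin l → ℝ) →L[ℝ] ZZ m),
      U ⊆ O ∧ P.Frs U io ze nu := by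
  have hsm : ∀ i, ∀ z ∈ O, SmAt ∞ (Y i) z := fun i z hz => by
    obtain ⟨p, h1, h2⟩ := hY.smooth i
    exact ⟨p, Cn.of_on h1 hY.isOpen hz, by
      filter_upwards [hY.isOpen.mem_nhds hz] with y hy using h2 y hy⟩
  obtain ⟨V, I, hV, c, hI⟩ := (h.sys false).maxI (Y := Y false) (O := O)
    ⟨hY.isOpen, hY.ne, hY.sub, hsm false, fun _ _ => le_rfl, hY.le false,
      fun z hz T a b => hY.map false z hz T false a b⟩
  obtain ⟨r, U₁, io, a1, a2, a3, a4, a5⟩ := basic omL_sk omL_nd c.op c.ne c.sm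
  obtain ⟨k, U₂, ze, b1, b2, b3, b4, b5⟩ := basic omL_sk omL_nd a1 a2 fun z hz =>
    hsm false z (hV (a3 hz))
  obtain ⟨l, U, nu, c1, c2, c3, c4, c5⟩ := basic omL_sk omL_nd b1 b2 fun z hz =>
    hsm true z (hV (a3 (b3 hz)))
  have s1 : U ⊆ U₁ := c3.trans b3
  have sV : U ⊆ V := s1.trans a3
  have sO : U ⊆ O := sV.trans hV
  have mI : ∀ z ∈ U, ∀ v, v ∈ I z ↔ ∃ a, io z a = v := fun z hz v => by
    rw [← (a5 z (s1 hz)).2.1]; rfl
  have mS : ∀ z ∈ U, ∀ v, v ∈ Y false z ↔ ∃ a, ze z a = v := fun z hz v => by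
    rw [← (b5 z (c3 hz)).2.1]; rfl
  have mU : ∀ z ∈ U, ∀ v, v ∈ Y true z ↔ ∃ a, nu z a = v := fun z hz v => by
    rw [← (c5 z hz).2.1]; rfl
  have pos : ∀ {j : ℕ} {i : Bool} {e : ZZ m → (Fin j → ℝ) →L[ℝ] ZZ m},
      (∀ z ∈ U, ∀ v, v ∈ Y i z ↔ ∃ a, e z a = v) → 0 < j := fun {j i e} he => by
    obtain ⟨z, hz⟩ := c2
    refine Nat.pos_of_ne_zero ?_
    rintro rfl
    refine hY.ne_bot i z (sO hz) ((Submodule.eq_bot_iff _).2 fun v hv => ?_)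
    obtain ⟨a, rfl⟩ := (he z hz v).1 hv
    rw [Subsingleton.elim a 0, map_zero]
  have ort : ∀ z ∈ U, ∀ v ∈ Y false z, ∀ u ∈ Y true z, omL m v u = 0 := fun z hz v hv u hu => by
    rw [omL_sk, omL_apply, hY.orth z (sO hz) u hu v hv, neg_zero]
  have ch : ∀ i, ∀ z ∈ U, ∀ u ∈ Y (!i) z, ChO (omL m) (Y i) z u := fun i z hz u hu =>
    ⟨fun y hy => by
      cases i
      · exact ort z hz y hy u hu
      · simpa using hY.orth z (sO hz) y hy u hu,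
    fun ζ k1 k2 w hw => by
      simpa using hY.ch i z (sO hz) ζ k1 k2 u hu w fun y hy => by simpa using hw y hy⟩
  have da : ∀ {j : ℕ} {e : ZZ m → (Fin j → ℝ) →L[ℝ] ZZ m}, ContDiffOn ℝ ∞ e U → ∀ z ∈ U,
      DifferentiableAt ℝ e z := fun he z hz =>
    (he.contDiffAt (c1.mem_nhds hz)).differentiableAt (by simp)
  have bio := fun z (hz : z ∈ U) a =>
    (a5 z (s1 hz)).2.2 _ (hI z (sV hz) _ ((mI z hz _).2 ⟨a, rfl⟩))
  have bze := fun z (hz : z ∈ U) a =>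
    (b5 z (c3 hz)).2.2 _ (ch false z hz _ ((mU z hz _).2 ⟨a, rfl⟩))
  have bnu := fun z (hz : z ∈ U) a => (c5 z hz).2.2 _ (ch true z hz _ ((mS z hz _).2 ⟨a, rfl⟩))
  have ioE : ∀ z ∈ U, ∀ a, io z a ∈ P.E false z := fun z hz a =>
    c.le2 z (sV hz) ((mI z hz _).2 ⟨a, rfl⟩)
  have sw : ∀ {α : Type} {f : α → ZZ m} {v : ZZ m}, (∃ a, f a = v) → ∃ a, v = f a :=
    fun ⟨a, ha⟩ => ⟨a, ha.symm⟩
  refine ⟨U, r, k, l, io, ze, nu, sO, c1, c2, sO.trans hY.sub, a4.mono s1, b4.mono c3, c4,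
    fun z hz => (a5 z (s1 hz)).1, fun z hz => (b5 z (c3 hz)).1, fun z hz => (c5 z hz).1,
    pos mS, pos mU, fun z hz b => sw ((mI z hz _).1 (c.le1 z (sV hz) ((mS z hz _).2 ⟨b, rfl⟩))),
    ioE, fun z hz a => hY.le true z (sO hz) ((mU z hz _).2 ⟨a, rfl⟩),
    fun z hz b a => by simpa using ort z hz _ ((mS z hz _).2 ⟨b, rfl⟩) _ ((mU z hz _).2 ⟨a, rfl⟩),
    fun z hz T k1 k2 a => sw ((mI _ k2 _).1
      (c.map z (sV hz) T k1 (sV k2) _ ((mI z hz _).2 ⟨a, rfl⟩))),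
    fun z hz T k1 k2 a => sw ((mS _ k2 _).1
      (hY.map false z (sO hz) T false k1 (sO k2) _ ((mS z hz _).2 ⟨a, rfl⟩))),
    fun z hz T k1 k2 a => sw ((mU _ k2 _).1
      (hY.map true z (sO hz) T false k1 (sO k2) _ ((mU z hz _).2 ⟨a, rfl⟩))),
    fun z hz a a' w => by simpa using bio z hz a a' w,
    fun z hz a a' w => by simpa using bze z hz a a' w,
    fun z hz a a' w => by simpa using bnu z hz a a' w,
    fun z hz a a' => comm_of_basic omL_sk omL_nd (da (a4.mono s1) z hz) (da (a4.mono s1) z hz) ?_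
      (bio z hz a a') (bio z hz a' a),
    fun z hz a b => comm_of_basic omL_sk omL_nd (da c4 z hz) (da (b4.mono c3) z hz) ?_
      (bze z hz a b) (bnu z hz b a)⟩
  · filter_upwards [c1.mem_nhds hz] with y hy
    simpa using h.lag (hY.sub (sO hy)) (ioE y hy a') (ioE y hy a)
  · filter_upwards [c1.mem_nhds hz] with y hy
    exact ort y hy _ ((mS y hy _).2 ⟨b, rfl⟩) _ ((mU y hy _).2 ⟨a, rfl⟩)

lemma Frs.mono {U V : Set (ZZ m)} {r k l : ℕ} {io : ZZ m → (Fin r → ℝ) →L[ℝ] ZZ m}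
    {ze : ZZ m → (Fin k → ℝ) →L[ℝ] ZZ m} {nu : ZZ m → (Fin l → ℝ) →L[ℝ] ZZ m}
    (h : P.Frs U io ze nu) (hV : IsOpen V) (hne : V.Nonempty) (s : V ⊆ U) : P.Frs V io ze nu :=
  ⟨hV, hne, s.trans h.sub, h.sio.mono s, h.sze.mono s, h.snu.mono s, fun z hz => h.iio z (s hz),
    fun z hz => h.ize z (s hz), fun z hz => h.inu z (s hz), h.k0, h.l0,
    fun z hz => h.ze_io z (s hz), fun z hz => h.io_E z (s hz), fun z hz => h.nu_E z (s hz),
    fun z hz => h.orth z (s hz), fun z hz T a b => h.mio z (s hz) T a (s b),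
    fun z hz T a b => h.mze z (s hz) T a (s b), fun z hz T a b => h.mnu z (s hz) T a (s b),
    fun z hz => h.bio z (s hz), fun z hz => h.bze z (s hz), fun z hz => h.bnu z (s hz),
    fun z hz => h.cio z (s hz), fun z hz => h.czn z (s hz)⟩

end PD

end Crest.Agent.N221
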