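import Crest.Agent.N221.Fr.Jf

/-! Row 221, block Fr: (B1) a nonconstant polynomial curve tangent to an invariant distribution
of a linear contraction. -/

set_option autoImplicit false
set_option linter.unusedSectionVars false

open Filter Topology Metric Finset
open Set hiding range
open scoped ContDiff

noncomputable section

namespace Crest.Agent.N221.Fr

open Crest.Agent.Lib

variable {F H : Type} [NormedAddCommGroup F] [NormedSpace ℝ F] [FiniteDimensional ℝ F]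
  [NormedAddCommGroup H] [NormedSpace ℝ H]

/-- `∑ τ^(j+1) a_j` -/
def pw (N : ℕ) (a : ℕ → F) (τ : ℝ) : F := ∑ j ∈ range N, τ ^ (j + 1) • a j

/-- its derivative -/
def pw' (N : ℕ) (a : ℕ → F) (τ : ℝ) : F := ∑ j ∈ range N, (((j : ℝ) + 1) * τ ^ j) • a j

lemma hasDerivAt_pw (N : ℕ) (a : ℕ → F) (τ : ℝ) : HasDerivAt (pw N a) (pw' N a τ) τ := by
  have := HasDerivAt.fun_sum (u := range N) fun j _ => (hasDerivAt_pow (j + 1) τ).smul_const (a j)
  unfold pw
  simpa [pw'] using this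

lemma pw_zero (N : ℕ) (a : ℕ → F) : pw N a 0 = 0 := by simp [pw]

lemma norm_pw {N : ℕ} {a : ℕ → F} {τ : ℝ} (h : τ ∈ Set.Icc (0 : ℝ) 1) :
    ‖pw N a τ‖ ≤ ∑ j ∈ range N, ‖a j‖ :=
  (norm_sum_le _ _).trans (sum_le_sum fun j _ => by
    rw [norm_smul, Real.norm_of_nonneg (pow_nonneg h.1 _)]
    exact mul_le_of_le_one_left (norm_nonneg _) (pow_le_one₀ h.1 h.2))

lemma pw_scale (N : ℕ) (a : ℕ → F) (s τ : ℝ) :
    pw N (fun j => s ^ (j + 1) • a j) τ = pw N a (s * τ) :=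
  sum_congr rfl fun j _ => by rw [smul_smul, mul_pow, mul_comm]

lemma pw'_scale (N : ℕ) (a : ℕ → F) (s τ : ℝ) :
    pw' N (fun j => s ^ (j + 1) • a j) τ = s • pw' N a (s * τ) := by
  rw [pw', pw', smul_sum]
  exact sum_congr rfl fun j _ => by rw [smul_smul, smul_smul, mul_pow]; congr 1; ring

lemma pw_ne {N : ℕ} {a : ℕ → F} {j : ℕ} (hj : j < N) (h : a j ≠ 0) :
    ∃ τ ∈ Set.Icc (0 : ℝ) 1, pw N a τ ≠ 0 := by
  by_contra hc
  push Not at hc
  obtain ⟨l, hl⟩ := SeparatingDual.exists_ne_zero (R := ℝ) h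
  have : (∑ i ∈ range N, Polynomial.monomial (i + 1) (l (a i)) : Polynomial ℝ) = 0 := by
    refine Polynomial.eq_zero_of_infinite_isRoot _ ((Icc_infinite (zero_lt_one' ℝ)).mono
      fun τ hτ => ?_)
    have := congrArg l (hc τ hτ)
    simpa [pw, Polynomial.eval_finsetSum, mul_comm] using this
  have := congrArg (fun p => Polynomial.coeff p (j + 1)) this
  simp [Polynomial.coeff_monomial, hj] at this
  exact hl this

/-- the integral curve and its Taylor polynomial -/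
lemma b1_curve {β : F → F} {r : ℝ} (hr : 0 < r) (hβ : ContDiffOn ℝ ∞ β (ball 0 r)) (N : ℕ) :
    ∃ δ > (0 : ℝ), ∃ (g : ℝ → F) (a : ℕ → F), g 0 = 0 ∧ a 0 = β 0 ∧ ∀ t ∈ Set.Icc 0 δ, g t ∈ ball 0 r ∧
      HasDerivAt g (β (g t)) t ∧ ‖β (g t) - pw' (N + 1) a t‖ ≤ t ^ N := by
  have := FiniteDimensional.complete ℝ F
  have h1 : ContDiffOn ℝ 1 β (ball 0 r) := hβ.of_le (by simp)
  have hD := ODEFlow.isOpen_dom isOpen_ball h1
  have h0 : (0 : F) ∈ ball (0 : F) r := mem_ball_self hr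
  obtain ⟨δ, hδ, hs⟩ := Metric.isOpen_iff.1 (hD.preimage (f := fun t : ℝ => ((0 : F), t))
    (by fun_prop)) 0 (ODEFlow.mem_dom_zero h0)
  set g : ℝ → F := fun t => ODEFlow.flow β (ball 0 r) (0, t) with hg
  have g0 : g 0 = 0 := ODEFlow.flow_zero isOpen_ball h1 h0
  have gm : ∀ t ∈ ball (0 : ℝ) δ, g t ∈ ball 0 r := fun t ht =>
    ODEFlow.flow_mem isOpen_ball h1 (hs ht)
  have gs : ContDiffOn ℝ ∞ g (ball 0 δ) :=
    (ODEFlow.contDiffOn_flow (n := ⊤) (by simp) isOpen_ball hβ).comp (by fun_prop) hs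
  have hT := (taylor_isLittleO (n := N) (convex_ball (0 : ℝ) δ) (mem_ball_self hδ)
    ((hβ.comp gs gm).of_le (by exact_mod_cast le_top))).bound one_pos
  rw [isOpen_ball.nhdsWithin_eq (mem_ball_self hδ)] at hT
  obtain ⟨δ', hδ', h2⟩ := Metric.eventually_nhds_iff_ball.1 (hT.and (ball_mem_nhds _ hδ))
  refine ⟨δ' / 2, half_pos hδ', g, fun j => (((j + 1).factorial : ℝ))⁻¹ •
    iteratedDerivWithin j (β ∘ g) (ball 0 δ) 0, g0, by simp [g0], fun t ht => ?_⟩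
  obtain ⟨k1, k2⟩ := h2 t (by
    rw [mem_ball_zero_iff, Real.norm_of_nonneg ht.1]; linarith [ht.2])
  refine ⟨gm t k2, ODEFlow.hasDerivAt_flow isOpen_ball h1 (hs k2), ?_⟩
  rw [taylor_within_apply, sub_zero, one_mul, Real.norm_of_nonneg (pow_nonneg ht.1 _)] at k1
  refine le_of_eq_of_le (congrArg (fun x => ‖β (g t) - x‖) ?_) k1
  refine sum_congr rfl fun j _ => ?_
  rw [smul_smul, Nat.factorial_succ]
  congr 1
  push_cast
  field_simp

theorem b1 (A B : F →L[ℝ] F) (hAB : A * B = 1) {C θ r : ℝ} (hθ0 : 0 ≤ θ) (hθ : θ < 1)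
    (hA : ∀ n, ‖A ^ n‖ ≤ C * θ ^ n) (hr : 0 < r) {κ : F → F →L[ℝ] H}
    (hκ : ContinuousOn κ (ball 0 r)) {β : F → F} (hβ : ContDiffOn ℝ ∞ β (ball 0 r))
    (h0 : β 0 ≠ 0) (hκβ : ∀ w ∈ ball (0 : F) r, κ w (β w) = 0)
    (hinv : ∀ w ∈ ball (0 : F) r, A w ∈ ball (0 : F) r → ∀ v, κ (A w) (A v) = 0 → κ w v = 0)
    {ε₀ : ℝ} (hε₀ : 0 < ε₀) : ∃ (N : ℕ) (a : ℕ → F), pw N a 1 ≠ 0 ∧ ∀ τ ∈ Set.Icc (0 : ℝ) 1,
      ‖pw N a τ‖ ≤ ε₀ ∧ pw N a τ ∈ ball (0 : F) r ∧ κ (pw N a τ) (pw' N a τ) = 0 := by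
  have hb : 0 < ‖β 0‖ := norm_pos_iff.2 h0
  have hAv : ∀ n v, ‖(A ^ n) v‖ ≤ C * θ ^ n * ‖v‖ := fun n v =>
    ((A ^ n).le_opNorm v).trans (mul_le_mul_of_nonneg_right (hA n) (norm_nonneg _))
  have hC : 1 ≤ C := by
    have := hAv 0 (β 0)
    simp only [pow_zero, one_apply_eq_self, mul_one] at this
    exact le_of_mul_le_mul_right (by linarith) hb
  have hAB' : ∀ n v, (A ^ n) ((B ^ n) v) = v := fun n => by
    induction n with
    | zero => simp
    | succ n ih =>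
      intro v
      rw [pow_succ, pow_succ', mul_apply_eq_comp, mul_apply_eq_comp,
        ← mul_apply_eq_comp A B, hAB, one_apply_eq_self, ih]
  have back : ∀ n w v, C * ‖w‖ < r → κ ((A ^ n) w) ((A ^ n) v) = 0 → κ w v = 0 := by
    intro n w v hw
    have hm : ∀ j, (A ^ j) w ∈ ball (0 : F) r := fun j => mem_ball_zero_iff.2
      ((hAv j w).trans_lt (lt_of_le_of_lt (mul_le_mul_of_nonneg_right
        (mul_le_of_le_one_right (by linarith) (pow_le_one₀ hθ0 hθ.le)) (norm_nonneg _)) hw))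
    induction n with
    | zero => simp
    | succ n ih =>
      intro h
      have := hm (n + 1)
      rw [pow_succ'] at h this
      exact ih (hinv _ (hm n) this _ h)
  obtain ⟨ε, hε, hε1, hε2⟩ : ∃ ε > 0, ε ≤ ε₀ ∧ C * (2 * ε) < r :=
    ⟨min ε₀ (r / (4 * C)), lt_min hε₀ (by positivity), min_le_left _ _, by
      have := min_le_right ε₀ (r / (4 * C))
      rw [le_div_iff₀ (by positivity)] at this
      nlinarith⟩
  obtain ⟨N, hN⟩ : ∃ N : ℕ, (‖B‖ + 1) * θ ^ (N + 1) < 1 := by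
    have := ((tendsto_pow_atTop_nhds_zero_of_lt_one hθ0 hθ).comp
      (tendsto_add_atTop_nat 1)).const_mul (‖B‖ + 1)
    rw [mul_zero] at this
    exact (this.eventually (gt_mem_nhds one_pos)).exists
  obtain ⟨δ, hδ, g, a, g0, a0, hg⟩ := b1_curve hr hβ N
  -- approximate solutions
  have app : ∀ η > 0, ∃ b : ℕ → F, ∑ j ∈ range (N + 1), ‖b j‖ = ε ∧ ∀ τ ∈ Set.Icc (0 : ℝ) 1,
      ∃ x v, ‖x - pw (N + 1) b τ‖ ≤ η ∧ ‖v - pw' (N + 1) b τ‖ ≤ η ∧ κ x v = 0 := by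
    intro η hη
    set K := ε * C / ‖β 0‖ with hK
    have t1 := (tendsto_pow_atTop_nhds_zero_of_lt_one hθ0 hθ).const_mul K
    have t2 := (tendsto_pow_atTop_nhds_zero_of_lt_one (by positivity) hN).const_mul (K ^ (N + 1))
    rw [mul_zero] at t1 t2
    obtain ⟨n, n1, n2⟩ := ((t1.eventually (gt_mem_nhds hδ)).and
      (t2.eventually (gt_mem_nhds (lt_min hη hε)))).exists
    have hlow : ‖β 0‖ ≤ C * θ ^ n * ‖(B ^ n) (β 0)‖ := by
      have := hAv n ((B ^ n) (β 0))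
      rwa [hAB'] at this
    have hφ : Continuous fun s : ℝ => ∑ j ∈ range (N + 1), ‖s ^ (j + 1) • (B ^ n) (a j)‖ := by
      fun_prop
    have hK0 : 0 ≤ K * θ ^ n := by positivity
    obtain ⟨s, hs, hs'⟩ := intermediate_value_Icc hK0 hφ.continuousOn (show ε ∈ _ from ⟨by simp [hε.le], by
      refine le_trans ?_ (single_le_sum (f := fun j => ‖(K * θ ^ n) ^ (j + 1) • (B ^ n) (a j)‖)
        (fun _ _ => norm_nonneg _) (mem_range.2 (Nat.succ_pos N)))
      simp only [zero_add, pow_one, norm_smul, Real.norm_of_nonneg hK0, a0]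
      rw [hK, div_mul_eq_mul_div, div_mul_eq_mul_div, le_div_iff₀ hb]
      nlinarith [mul_le_mul_of_nonneg_left hlow hε.le]⟩)
    have hst : ∀ τ ∈ Set.Icc (0 : ℝ) 1, s * τ ∈ Set.Icc 0 δ := fun τ hτ =>
      ⟨mul_nonneg hs.1 hτ.1, (mul_le_of_le_one_right hs.1 hτ.2).trans (hs.2.trans n1.le)⟩
    have e1 : ∀ τ, pw (N + 1) (fun j => s ^ (j + 1) • (B ^ n) (a j)) τ =
        (B ^ n) (pw (N + 1) a (s * τ)) := fun τ => by rw [pw_scale]; simp [pw]
    have e2 : ∀ τ, pw' (N + 1) (fun j => s ^ (j + 1) • (B ^ n) (a j)) τ =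
        s • (B ^ n) (pw' (N + 1) a (s * τ)) := fun τ => by rw [pw'_scale]; simp [pw']
    have hv : ∀ τ ∈ Set.Icc (0 : ℝ) 1, ‖s • (B ^ n) (β (g (s * τ))) -
        pw' (N + 1) (fun j => s ^ (j + 1) • (B ^ n) (a j)) τ‖ ≤ min η ε := fun τ hτ => by
      rw [e2, ← smul_sub, ← map_sub, norm_smul, Real.norm_of_nonneg hs.1]
      have k1 : ‖(B ^ n) (β (g (s * τ)) - pw' (N + 1) a (s * τ))‖ ≤ (‖B‖ + 1) ^ n * s ^ N :=
        ((B ^ n).le_opNorm _).trans (mul_le_mul ?_ ((hg _ (hst τ hτ)).2.2.trans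
          (pow_le_pow_left₀ (hst τ hτ).1 (mul_le_of_le_one_right hs.1 hτ.2) N)) (norm_nonneg _)
          (by positivity))
      · have k2 : s ^ (N + 1) ≤ (K * θ ^ n) ^ (N + 1) := pow_le_pow_left₀ hs.1 hs.2 _
        calc _ ≤ s * ((‖B‖ + 1) ^ n * s ^ N) := mul_le_mul_of_nonneg_left k1 hs.1
          _ = (‖B‖ + 1) ^ n * s ^ (N + 1) := by ring
          _ ≤ (‖B‖ + 1) ^ n * (K * θ ^ n) ^ (N + 1) := by gcongr
          _ = K ^ (N + 1) * ((‖B‖ + 1) * θ ^ (N + 1)) ^ n := by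
            rw [mul_pow, mul_pow, ← pow_mul, ← pow_mul, mul_comm n]; ring
          _ ≤ _ := n2.le
      · rcases Nat.eq_zero_or_pos n with rfl | hn
        · rw [pow_zero, pow_zero]
          exact ContinuousLinearMap.norm_id_le
        · exact (norm_pow_le' B hn).trans (pow_le_pow_left₀ (norm_nonneg _) (by linarith) n)
    refine ⟨_, hs', fun τ hτ => ?_⟩
    have hx : ‖(B ^ n) (g (s * τ)) - pw (N + 1) (fun j => s ^ (j + 1) • (B ^ n) (a j)) τ‖ ≤
        min η ε := by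
      have := (convex_Icc (0 : ℝ) 1).norm_image_sub_le_of_norm_hasDerivWithin_le
        (f := fun τ => (B ^ n) (g (s * τ)) - pw (N + 1) (fun j => s ^ (j + 1) • (B ^ n) (a j)) τ)
        (fun t ht => ((((B ^ n).hasFDerivAt.comp_hasDerivAt t ((hg _ (hst t ht)).2.1.scomp t
          ((hasDerivAt_id t).const_mul s))).congr_deriv (by simp)).sub
          (hasDerivAt_pw _ _ t)).hasDerivWithinAt) hv (Set.left_mem_Icc.2 zero_le_one) hτ
      simp only [mul_zero, g0, map_zero, pw_zero, sub_zero, Real.norm_of_nonneg hτ.1] at this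
      exact this.trans (mul_le_of_le_one_right (lt_min hη hε).le hτ.2)
    refine ⟨_, _, hx.trans (min_le_left _ _), (hv τ hτ).trans (min_le_left _ _), back n _ _ ?_ ?_⟩
    · have k1 := norm_pw (N := N + 1) (a := fun j => s ^ (j + 1) • (B ^ n) (a j)) hτ
      have k2 := norm_sub_norm_le ((B ^ n) (g (s * τ)))
        (pw (N + 1) (fun j => s ^ (j + 1) • (B ^ n) (a j)) τ)
      have k3 := min_le_right η ε
      have hs'' : ∑ j ∈ range (N + 1), ‖s ^ (j + 1) • (B ^ n) (a j)‖ = ε := hs'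
      exact lt_of_le_of_lt (mul_le_mul_of_nonneg_left (by linarith) (by linarith)) hε2
    · rw [map_smul, hAB', hAB', map_smul, hκβ _ (hg _ (hst τ hτ)).1, smul_zero]
  choose b hb1 hb2 using fun n : ℕ => app (1 / ((n : ℝ) + 1)) Nat.one_div_pos_of_nat
  obtain ⟨c, -, φ, hφ, hc⟩ := (isCompact_closedBall (0 : Fin (N + 1) → F) ε).tendsto_subseq
    (x := fun n (j : Fin (N + 1)) => b n j) fun n => by
      rw [mem_closedBall_zero_iff, pi_norm_le_iff_of_nonneg hε.le]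
      intro j
      rw [← hb1 n]
      exact single_le_sum (f := fun j => ‖b n j‖) (fun _ _ => norm_nonneg _) (mem_range.2 j.2)
  let a' : ℕ → F := fun j => if h : j < N + 1 then c ⟨j, h⟩ else 0
  have hj : ∀ j ∈ range (N + 1), Tendsto (fun n => b (φ n) j) atTop (𝓝 (a' j)) := fun j hj => by
    simp only [a', dif_pos (mem_range.1 hj)]
    exact tendsto_pi_nhds.1 hc ⟨j, mem_range.1 hj⟩
  have hsum : ∑ j ∈ range (N + 1), ‖a' j‖ = ε :=
    tendsto_nhds_unique (tendsto_finsetSum _ fun j h => (hj j h).norm) (by simp [hb1])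
  have hle : ∀ τ ∈ Set.Icc (0 : ℝ) 1, ‖pw (N + 1) a' τ‖ ≤ ε := fun τ hτ => hsum ▸ norm_pw hτ
  have hball : ∀ τ ∈ Set.Icc (0 : ℝ) 1, pw (N + 1) a' τ ∈ ball (0 : F) r := fun τ hτ =>
    mem_ball_zero_iff.2 ((hle τ hτ).trans_lt (by nlinarith))
  have hk : ∀ τ ∈ Set.Icc (0 : ℝ) 1, κ (pw (N + 1) a' τ) (pw' (N + 1) a' τ) = 0 := fun τ hτ => by
    choose x v h1 h2 h3 using fun n => hb2 (φ n) τ hτ
    have t0 : Tendsto (fun n => 1 / ((φ n : ℝ) + 1)) atTop (𝓝 0) :=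
      tendsto_one_div_add_atTop_nhds_zero_nat.comp hφ.tendsto_atTop
    have tx : Tendsto x atTop (𝓝 (pw (N + 1) a' τ)) := by
      have := (squeeze_zero_norm h1 t0).add
        (tendsto_finsetSum _ fun j h => (hj j h).const_smul (τ ^ (j + 1)))
      simpa [pw] using this
    have tv : Tendsto v atTop (𝓝 (pw' (N + 1) a' τ)) := by
      have := (squeeze_zero_norm h2 t0).add
        (tendsto_finsetSum _ fun j h => (hj j h).const_smul (((j : ℝ) + 1) * τ ^ j))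
      simpa [pw'] using this
    have := (isBoundedBilinearMap_apply.continuous.tendsto (_, _)).comp
      (((hκ.continuousAt (isOpen_ball.mem_nhds (hball τ hτ))).tendsto.comp tx).prodMk_nhds tv)
    exact tendsto_nhds_unique this (by simp [Function.comp_def, h3])
  obtain ⟨j, hj1, hj2⟩ : ∃ j ∈ range (N + 1), a' j ≠ 0 := by
    by_contra hc
    push Not at hc
    rw [sum_eq_zero fun j h => by rw [hc j h, norm_zero]] at hsum
    exact hε.ne hsum
  obtain ⟨s, hs, hs0⟩ := pw_ne (mem_range.1 hj1) hj2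
  refine ⟨N + 1, fun j => s ^ (j + 1) • a' j, by rwa [pw_scale, mul_one], fun τ hτ => ?_⟩
  have hm : s * τ ∈ Set.Icc (0 : ℝ) 1 := ⟨mul_nonneg hs.1 hτ.1, mul_le_one₀ hs.2 hτ.1 hτ.2⟩
  rw [pw_scale, pw'_scale, map_smul, hk _ hm, smul_zero]
  exact ⟨(hle _ hm).trans hε1, hball _ hm, rfl⟩

end Crest.Agent.N221.Fr
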