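import Crest.Agent.N221.Fr.Defs

/-! Row 221, block Fr: leaf `InvS`. -/

set_option autoImplicit false

open Set Filter Topology
open scoped ContDiff

noncomputable section

namespace Crest.Agent.N221.Fr

/-- uniqueness for a linear differential inequality on `[0, 1]` -/
lemma zero_iff {G : Type} [NormedAddCommGroup G] [NormedSpace ℝ G] {f f' : ℝ → G} {K : ℝ}
    (hf : ∀ t ∈ Icc (0 : ℝ) 1, HasDerivAt f (f' t) t) (hK : ∀ t ∈ Icc (0 : ℝ) 1, ‖f' t‖ ≤ K * ‖f t‖) :
    f 1 = 0 ↔ f 0 = 0 := by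
  have k : ∀ {f f' : ℝ → G}, (∀ t ∈ Icc (0 : ℝ) 1, HasDerivAt f (f' t) t) →
      (∀ t ∈ Icc (0 : ℝ) 1, ‖f' t‖ ≤ K * ‖f t‖) → f 0 = 0 → f 1 = 0 := fun hf hK h0 =>
    eq_zero_of_abs_deriv_le_mul_abs_self_of_eq_zero_right
      (fun t ht => (hf t ht).continuousAt.continuousWithinAt)
      (fun t ht => (hf t (Ico_subset_Icc_self ht)).hasDerivWithinAt) h0
      (fun t ht => hK t (Ico_subset_Icc_self ht)) 1 ⟨zero_le_one, le_rfl⟩
  refine ⟨fun h1 => ?_, k hf hK⟩
  have m : ∀ t ∈ Icc (0 : ℝ) 1, 1 - t ∈ Icc (0 : ℝ) 1 := fun t ht =>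
    ⟨by linarith [ht.2], by linarith [ht.1]⟩
  simpa using k (f := fun t => f (1 - t)) (f' := fun t => -f' (1 - t))
    (fun t ht => (hf _ (m t ht)).comp_const_sub 1 t) (fun t ht => by simpa using hK _ (m t ht))
    (by simpa using h1)

theorem inv : InvS := by
  rintro E F G _ _ _ _ _ _ _ _ _ θ ρ X U D J hU hθ hρ eρ hX hC hJ ⟨y, w⟩ hp β
  have sJ : ∀ q ∈ D, ContDiffAt ℝ ∞ J q := fun q hq => hJ.sm.contDiffAt (hJ.op.mem_nhds hq)
  have dΦ : ∀ q ∈ D, ∀ v, ∃ T : E × F →L[ℝ] G, HasFDerivAt (fun q => θ (J q) (fderiv ℝ J q v)) T q ∧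
      ∀ u, T u = fderiv ℝ θ (J q) (fderiv ℝ J q u) (fderiv ℝ J q v) +
        θ (J q) (fderiv ℝ (fderiv ℝ J) q u v) := fun q hq v => by
    have h1 := ((hθ.contDiffAt (hU.mem_nhds (hJ.mem q hq))).differentiableAt (by simp)).hasFDerivAt.comp q
      ((sJ q hq).differentiableAt (by simp)).hasFDerivAt
    have h2 := (((sJ q hq).fderiv_right (m := 1) (by norm_cast)).differentiableAt
      one_ne_zero).hasFDerivAt.clm_apply (hasFDerivAt_const v q)
    exact ⟨_, h1.clm_apply h2, fun u => by simp [add_comm]⟩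
  let A : E → G →L[ℝ] G := fun z => (fderiv ℝ θ z (X z w) - (fderiv ℝ θ z).flip (X z w)) ∘L ρ z
  have cA : ContinuousOn A U := by
    have h1 := hθ.continuousOn_fderiv_of_isOpen hU (by simp)
    have h2 := hX.clm_apply (continuousOn_const (c := w))
    exact ((h1.clm_apply h2).sub (((ContinuousLinearMap.flipₗᵢ ℝ E E G).continuous.comp_continuousOn
      h1).clm_apply h2)).clm_comp hρ
  have hc : ∀ t ∈ Icc (0 : ℝ) 1, (y, t • w) ∈ D := hJ.star _ hp
  obtain ⟨K, hK⟩ := isCompact_Icc.exists_bound_of_continuousOn (cA.comp (f := fun t : ℝ => J (y, t • w))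
    (hJ.sm.continuousOn.comp (by fun_prop) hc) fun t ht => hJ.mem _ (hc t ht))
  have key := zero_iff (f := fun t : ℝ => θ (J (y, t • w)) (fderiv ℝ J (y, t • w) (β, 0)))
    (f' := fun t => A (J (y, t • w)) (θ (J (y, t • w)) (fderiv ℝ J (y, t • w) (β, 0)))) (K := K)
    (fun t ht => ?_) fun t ht => (ContinuousLinearMap.le_opNorm _ _).trans
      (mul_le_mul_of_nonneg_right (hK t ht) (norm_nonneg _))
  · have hy := hJ.mem1 _ hp
    have d1 := ((sJ _ (hJ.zero y hy)).differentiableAt (by simp)).hasFDerivAt.comp y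
      (f := fun y => (y, (0 : F))) (hasFDerivAt_prodMk_left y 0)
    have d2 := d1.unique ((hasFDerivAt_id y).congr_of_eventuallyEq
      (mem_of_superset (hU.mem_nhds hy) hJ.init))
    have e : fderiv ℝ J (y, 0) (β, 0) = β := DFunLike.congr_fun d2 β
    simpa only [one_smul, zero_smul, e, hJ.init y hy] using key
  · have hq := hc t ht
    have hz := hJ.mem _ hq
    obtain ⟨T, d1, e1⟩ := dΦ _ hq (β, 0)
    obtain ⟨T', d2, e2⟩ := dΦ _ hq (0, w)
    have e3 : T' = 0 := d2.unique ((hasFDerivAt_const 0 _).congr_of_eventuallyEq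
      (mem_of_superset (hJ.op.mem_nhds hq) fun q hq => by
        simpa only [mem_setOf_eq, hJ.der q hq] using (hC _ (hJ.mem q hq) w).1))
    have e4 := e2 (β, 0)
    have e5 := ((sJ _ hq).isSymmSndFDerivAt (by simp; norm_cast)).eq (β, 0) (0, w)
    have d3 : HasDerivAt (fun t : ℝ => (y, t • w)) (0, w) t := by
      simpa using (hasDerivAt_const t y).prodMk ((hasDerivAt_id t).smul_const w)
    refine (d1.comp_hasDerivAt t d3).congr_deriv ?_
    rw [e3, e5, hJ.der _ hq, zero_apply] at e4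
    rw [e1, hJ.der _ hq, ← neg_eq_of_add_eq_zero_right e4.symm]
    generalize fderiv ℝ J (y, t • w) (β, 0) = v
    have e6 := (hC _ hz w).2 (v - ρ _ (θ (J (y, t • w)) v)) (by rw [map_sub, eρ _ hz, sub_self])
    simp only [dF, map_sub, sub_apply] at e6
    simp only [A, ContinuousLinearMap.comp_apply, sub_apply, ContinuousLinearMap.flip_apply]
    linear_combination (norm := module) e6

end Crest.Agent.N221.Fr
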