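import Crest.Agent.N221.Fr.Defs

/-! Row 221, block Fr: leaf `InvolS`. -/

set_option autoImplicit false

open Set Filter Topology VectorField
open scoped ContDiff

noncomputable section

namespace Crest.Agent.N221.Fr

theorem invol : InvolS := by
  intro E G _ _ _ _ _ θ ρ U A B hU hθ hρ hr hA hB cA cB
  have D : ∀ V : E → E, ContDiffOn ℝ ∞ V U → (∀ z ∈ U, θ z (V z) = 0) → ∀ z ∈ U, ∀ u,
      θ z (fderiv ℝ V z u) = -fderiv ℝ θ z u (V z) := fun V hV h0 z hz u => by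
    have hn := hU.mem_nhds hz
    have e := ((((hθ.contDiffAt hn).differentiableAt (by simp)).hasFDerivAt.clm_apply
      ((hV.contDiffAt hn).differentiableAt (by simp)).hasFDerivAt).congr_of_eventuallyEq
        (f₁ := fun _ => 0) (mem_of_superset hn fun y hy => (h0 y hy).symm)).unique
          (hasFDerivAt_const 0 z)
    simpa [add_eq_zero_iff_eq_neg] using congrArg (· u) e
  have L : ∀ V W : E → E, ContDiffOn ℝ ∞ V U → ContDiffOn ℝ ∞ W U → (∀ z ∈ U, θ z (V z) = 0) →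
      (∀ z ∈ U, θ z (W z) = 0) → ∀ z ∈ U,
      θ z (lieBracket ℝ V W z) = -dF θ z (V z) (W z) := fun V W hV hW v0 w0 z hz => by
    rw [lieBracket, map_sub, D V hV v0 z hz, D W hW w0 z hz, dF]
    abel
  have S : ∀ V W : E → E, ContDiffOn ℝ ∞ V U → ContDiffOn ℝ ∞ W U →
      ContDiffOn ℝ ∞ (lieBracket ℝ V W) U := fun V W hV hW z hz =>
    ((hV.contDiffAt (hU.mem_nhds hz)).lieBracket_vectorField (hW.contDiffAt (hU.mem_nhds hz))
      (by simp)).contDiffWithinAt
  have K : ∀ V W : E → E, ContDiffOn ℝ ∞ V U → ContDiffOn ℝ ∞ W U → (∀ z ∈ U, Ch θ z (V z)) →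
      (∀ z ∈ U, θ z (W z) = 0) → ∀ z ∈ U, θ z (lieBracket ℝ V W z) = 0 :=
    fun V W hV hW v0 w0 z hz => by
      rw [L V W hV hW (fun z hz => (v0 z hz).1) w0 z hz, (v0 z hz).2 _ (w0 z hz), neg_zero]
  have h1 := K A B hA hB cA fun z hz => (cB z hz).1
  refine fun z hz => ⟨h1 z hz, fun w hw => ?_⟩
  have hZ : ContDiffOn ℝ ∞ (fun y => w - ρ y (θ y w)) U :=
    contDiffOn_const.sub (hρ.clm_apply (hθ.clm_apply contDiffOn_const))
  have z0 : ∀ y ∈ U, θ y (w - ρ y (θ y w)) = 0 := fun y hy => by rw [map_sub, hr y hy, sub_self]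
  have h2 := L _ _ (S A B hA hB) hZ h1 z0 z hz
  have hn := hU.mem_nhds hz
  have h3 := congrArg (θ z) (leibniz_identity_lieBracket (n := ∞) (by
    rw [minSmoothness_of_isRCLikeNormedField]; exact WithTop.coe_le_coe.2 le_top)
    (hA.contDiffAt hn) (hB.contDiffAt hn) (hZ.contDiffAt hn))
  rw [map_add, K A _ hA (S B _ hB hZ) cA (K B _ hB hZ cB z0) z hz,
    K B _ hB (S A _ hA hZ) cB (K A _ hA hZ cA z0) z hz, add_zero, h2] at h3
  simpa [hw, lieBracket] using h3

end Crest.Agent.N221.Fr
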