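import Crest.Agent.N221.Fr.Defs

/-! Row 221, block Fr: leaf `KerS`. -/

set_option autoImplicit false

open Set Filter Topology
open scoped ContDiff

noncomputable section

namespace Crest.Agent.N221.Fr

/-- a generalised inverse -/
theorem Ker.ginv {E' H : Type} [NormedAddCommGroup E'] [NormedSpace ℝ E'] [NormedAddCommGroup H]
    [NormedSpace ℝ H] [FiniteDimensional ℝ H] (k : E' →L[ℝ] H) :
    ∃ S : H →L[ℝ] E', (∀ v, k (S (k v)) = k v) ∧ ∀ w, S (k (S w)) = S w := by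
  obtain ⟨s, hs⟩ := (k : E' →ₗ[ℝ] H).rangeRestrict.exists_rightInverse_of_surjective
    (LinearMap.range_rangeRestrict _)
  obtain ⟨t, ht⟩ := (LinearMap.range (k : E' →ₗ[ℝ] H)).subtype.exists_leftInverse_of_injective
    (Submodule.ker_subtype _)
  have h1 : ∀ y, k (s y) = y := fun y => congrArg Subtype.val (LinearMap.congr_fun hs y)
  have h2 : ∀ y : LinearMap.range (k : E' →ₗ[ℝ] H), t y = y := fun y => LinearMap.congr_fun ht y
  refine ⟨LinearMap.toContinuousLinearMap (s ∘ₗ t), fun v => ?_, fun w => ?_⟩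
  · exact (h1 _).trans (congrArg Subtype.val (h2 ⟨k v, v, rfl⟩))
  · change s (t (k (s (t w)))) = s (t w)
    rw [h1, h2]

theorem ker : KerS := by
  intro E E' H _ _ _ _ _ _ _ _ κ O hO hne hκ
  have := FiniteDimensional.complete ℝ E'
  obtain ⟨z₀, hz₀, hmin⟩ := (InvImage.wf (fun z => Module.finrank ℝ (LinearMap.ker (κ z : E' →ₗ[ℝ] H)))
    Nat.lt_wfRel.wf).has_min O hne
  obtain ⟨S, h1, h2⟩ := Ker.ginv (κ z₀)
  obtain ⟨P, hP⟩ : ∃ P : E' →L[ℝ] E', P = 1 - S ∘L κ z₀ := ⟨_, rfl⟩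
  have Pv : ∀ v, P v = v - S (κ z₀ v) := fun v => by simp [hP]
  have kP : ∀ v, κ z₀ (P v) = 0 := fun v => by rw [Pv, map_sub, h1, sub_self]
  have PP : ∀ v, P (P v) = P v := fun v => by rw [Pv (P v), kP, map_zero, sub_zero]
  have PS : ∀ w, P (S w) = 0 := fun w => by rw [Pv, h2, sub_self]
  have hB : ContDiffOn ℝ ∞ (fun z => P + S ∘L κ z) O := contDiffOn_const.add (contDiffOn_const.clm_comp hκ)
  have e0 : P + S ∘L κ z₀ = 1 := by rw [hP, sub_add_cancel]
  refine ⟨z₀, O ∩ (fun z => P + S ∘L κ z) ⁻¹' {x | IsUnit x}, fun z => Ring.inverse (P + S ∘L κ z) ∘L P,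
    hB.continuousOn.isOpen_inter_preimage hO Units.isOpen, ⟨hz₀, by simp [e0]⟩, inter_subset_left,
    fun z hz => ?_, fun z hz => ?_⟩
  · obtain ⟨u, hu⟩ := hz.2
    refine ContDiffWithinAt.clm_comp ?_ contDiffWithinAt_const
    exact (show ContDiffAt ℝ ∞ Ring.inverse (P + S ∘L κ z) from
      (show (u : E' →L[ℝ] E') = P + S ∘L κ z from hu) ▸ contDiffAt_ringInverse ℝ u).comp_contDiffWithinAt z
        ((hB z hz.1).mono inter_subset_left)
  have hu : IsUnit (P + S ∘L κ z) := hz.2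
  obtain ⟨J, hJ⟩ : ∃ J, J = Ring.inverse (P + S ∘L κ z) := ⟨_, rfl⟩
  have i1 : ∀ v, J (P v + S (κ z v)) = v := fun v => by
    rw [hJ]; exact DFunLike.congr_fun (Ring.inverse_mul_cancel _ hu) v
  have i2 : ∀ v, P (J v) + S (κ z (J v)) = v := fun v => by
    rw [hJ]; exact DFunLike.congr_fun (Ring.mul_inverse_cancel _ hu) v
  simp only [e0, Ring.inverse_one, ← hJ, ContinuousLinearMap.comp_apply, one_apply_eq_self]
  have hle : LinearMap.ker (κ z : E' →ₗ[ℝ] H) ≤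
      (LinearMap.ker (κ z₀ : E' →ₗ[ℝ] H)).map (J : E' →ₗ[ℝ] E') := fun v hv =>
    ⟨P v, kP v, by simpa [show κ z v = 0 from hv] using i1 v⟩
  have heq := Submodule.eq_of_le_of_finrank_le hle
    ((Submodule.finrank_map_le _ _).trans (not_lt.1 (hmin z hz.1)))
  refine ⟨fun v => ?_, fun v => by rw [PP], fun v => ⟨fun hv => by simpa [hv] using i1 v, fun hv => ?_⟩⟩
  · have := congrArg P (i2 (P v))
    rwa [map_add, PS, add_zero, PP, PP] at this
  · exact (heq.ge ⟨P v, kP v, hv⟩ : v ∈ LinearMap.ker (κ z : E' →ₗ[ℝ] H))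

end Crest.Agent.N221.Fr
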