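import Crest.Agent.N221.Fr.Defs

/-! Row 221, block Fr: leaf `RiS`. -/

set_option autoImplicit false

open Set Filter Topology
open scoped ContDiff

noncomputable section

namespace Crest.Agent.N221.Fr

theorem ri : RiS := by
  intro E E' G _ _ _ _ _ _ _ _ θ O z₀ hO hz hθ hs
  have : CompleteSpace G := FiniteDimensional.complete ℝ G
  obtain ⟨R, hR⟩ := (θ z₀).exists_rightInverse_of_surjective (LinearMap.range_eq_top.2 hs)
  have h1 : ContDiffOn ℝ ∞ (fun z => θ z ∘L R) O := hθ.clm_comp contDiffOn_const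
  refine ⟨O ∩ (fun z => θ z ∘L R) ⁻¹' range ((↑) : (G ≃L[ℝ] G) → G →L[ℝ] G),
    fun z => R ∘L (θ z ∘L R).inverse,
    h1.continuousOn.isOpen_inter_preimage hO ContinuousLinearEquiv.isOpen,
    ⟨hz, .refl ℝ G, hR.symm⟩, inter_subset_left, contDiffOn_const.clm_comp fun z hz => ?_,
    fun z hz g => ContinuousLinearMap.IsInvertible.self_apply_inverse hz.2 g⟩
  exact (ContinuousLinearMap.IsInvertible.contDiffAt_map_inverse hz.2).comp_contDiffWithinAt z
    ((h1 z hz.1).mono inter_subset_left)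

end Crest.Agent.N221.Fr
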