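import Crest.Agent.N221.Fr.Jf
import Crest.Agent.N221.Fr.Ker
import Crest.Agent.N221.Fr.Ri
import Crest.Agent.N221.Fr.Invol
import Crest.Agent.N221.Fr.Inv

/-! Row 221, block Fr: Frobenius chart and basic forms. -/

set_option autoImplicit false
set_option linter.unusedSectionVars false

open Set Filter Topology
open scoped ContDiff

noncomputable section

namespace Crest.Agent.N221.Fr

section

variable {E E' G : Type} [NormedAddCommGroup E] [NormedSpace ℝ E] [NormedAddCommGroup E']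
  [NormedSpace ℝ E'] [NormedAddCommGroup G] [NormedSpace ℝ G]

/-- `d` commutes with pull-back -/
lemma dF_pull {θ : E → E →L[ℝ] G} {π : E' → E} {z : E'} (hπ : ContDiffAt ℝ 2 π z)
    (hθ : DifferentiableAt ℝ θ (π z)) (v w : E') :
    dF (fun z => θ (π z) ∘L fderiv ℝ π z) z v w =
      dF θ (π z) (fderiv ℝ π z v) (fderiv ℝ π z w) := by
  have d1 := (hπ.differentiableAt (by simp)).hasFDerivAt
  have d2 := ((hπ.fderiv_right (m := 1) (by norm_num)).differentiableAt (by simp)).hasFDerivAt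
  have sy := hπ.isSymmSndFDerivAt (by simp)
  have e := ((hθ.hasFDerivAt.comp z d1).clm_comp d2).fderiv
  simp only [dF]
  rw [show fderiv ℝ (fun z => θ (π z) ∘L fderiv ℝ π z) z = _ from e]
  simp [sy v w]

lemma dF_congr {θ θ' : E → E →L[ℝ] G} {z : E} (h : θ =ᶠ[𝓝 z] θ') (v w : E) :
    dF θ z v w = dF θ' z v w := by simp only [dF, h.fderiv_eq]

lemma JF.der1 {F : Type} [NormedAddCommGroup F] [NormedSpace ℝ F] {X : E → F →L[ℝ] E}
    {U : Set E} {D : Set (E × F)} {J : E × F → E} (h : JF X U D J) (hU : IsOpen U) {y : E}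
    (hy : y ∈ U) (β : E) : fderiv ℝ J (y, 0) (β, 0) = β := by
  have d := ((h.sm.contDiffAt (h.op.mem_nhds (h.zero y hy))).differentiableAt
    (by simp)).hasFDerivAt.comp y (f := fun y' : E => (y', (0 : F))) (hasFDerivAt_prodMk_left y 0)
  have e : (J ∘ fun y' : E => (y', (0 : F))) =ᶠ[𝓝 y] id := by
    filter_upwards [hU.mem_nhds hy] with y' hy' using h.init y' hy'
  simpa using congrArg (fun L => L β) ((d.congr_of_eventuallyEq e.symm).unique (hasFDerivAt_id y))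

end

/-- FROBENIUS: a commuting family of projectors with constant kernel has a smooth retraction `π`
killing it, and every vector splits along `π` through the joint flow. -/
theorem frobJ {E : Type} [NormedAddCommGroup E] [NormedSpace ℝ E] [CompleteSpace E]
    {p : E → E →L[ℝ] E} {U : Set E} {z₀ : E} {D : Set (E × E)} {J : E × E → E} (hU : IsOpen U)
    (hz : z₀ ∈ U) (h0 : ∀ v, p z₀ (p z₀ v) = p z₀ v) (h1 : ∀ z ∈ U, ∀ v, p z (p z₀ v) = p z v)
    (hJ : JF p U D J) :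
    ∃ (V : Set E) (π Ψ : E → E), IsOpen V ∧ z₀ ∈ V ∧ V ⊆ U ∧ ContDiffOn ℝ ∞ π V ∧ ∀ z ∈ V,
      (π z, Ψ z) ∈ D ∧ J (π z, Ψ z) = z ∧ (∀ v, p z v = v → fderiv ℝ π z v = 0) ∧
      ∀ v, ∃ e, v = fderiv ℝ J (π z, Ψ z) (fderiv ℝ π z v, 0) + p z e := by
  set Q : E →L[ℝ] E := 1 - p z₀ with hQ
  set ι : E → E × E := fun e => (z₀ + Q e, e) with hι
  have dι : ∀ e, HasFDerivAt ι (Q.prod 1) e := fun e =>
    (Q.hasFDerivAt.const_add z₀).prodMk (hasFDerivAt_id e)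
  have sι : ContDiff ℝ ∞ ι := (contDiff_const.add Q.contDiff).prodMk contDiff_id
  have ι0 : ι 0 = (z₀, 0) := by simp [hι]
  set Φ : E → E := fun e => J (ι e) with hΦ
  have hJa : ∀ q ∈ D, ContDiffAt ℝ ∞ J q := fun q hq => hJ.sm.contDiffAt (hJ.op.mem_nhds hq)
  have hΦa : ∀ e, ι e ∈ D → ContDiffAt ℝ ∞ Φ e := fun e he => (hJa _ he).comp e sι.contDiffAt
  have dΦ : ∀ e, ι e ∈ D → ∀ e', fderiv ℝ Φ e e' =
      fderiv ℝ J (ι e) (Q e', 0) + p (Φ e) e' := fun e he e' => by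
    have := (((hJa _ he).differentiableAt (by simp)).hasFDerivAt.comp e (dι e)).fderiv
    rw [show fderiv ℝ Φ e = _ from this, ← hJ.der _ he, ← map_add]
    simp
  have h0D : ι 0 ∈ D := ι0 ▸ hJ.zero z₀ hz
  have Φ0 : Φ 0 = z₀ := by simp only [hΦ, ι0, hJ.init z₀ hz]
  have dΦ0 : fderiv ℝ Φ 0 = (ContinuousLinearEquiv.refl ℝ E : E →L[ℝ] E) := by
    ext e'
    rw [dΦ 0 h0D, ι0, hJ.der1 hU hz, Φ0]
    simp [hQ]
  have hd0 : HasFDerivAt Φ (ContinuousLinearEquiv.refl ℝ E : E →L[ℝ] E) 0 :=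
    dΦ0 ▸ ((hΦa 0 h0D).differentiableAt (by simp)).hasFDerivAt
  set H := (hΦa 0 h0D).toOpenPartialHomeomorph Φ hd0 (by simp) with hH
  have hHΦ : (H : E → E) = Φ := rfl
  have h0s : (0 : E) ∈ H.source := (hΦa 0 h0D).mem_toOpenPartialHomeomorph_source hd0 (by simp)
  have hD' : IsOpen (ι ⁻¹' D) := hJ.op.preimage sι.continuous
  have hc : ContinuousOn (fderiv ℝ Φ) (ι ⁻¹' D) := fun e he =>
    ((hΦa e he).fderiv_right (m := 0) (by simp)).continuousAt.continuousWithinAt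
  have hW : IsOpen (ι ⁻¹' D ∩ fderiv ℝ Φ ⁻¹' range ((↑) : (E ≃L[ℝ] E) → E →L[ℝ] E)) :=
    hc.isOpen_inter_preimage hD' ContinuousLinearEquiv.isOpen
  have hV := H.isOpen_inter_preimage_symm hW
  have hsy : H.symm z₀ = 0 := by rw [← Φ0, ← hHΦ]; exact H.left_inv h0s
  have key : ∀ z ∈ H.target ∩ H.symm ⁻¹' (ι ⁻¹' D ∩ fderiv ℝ Φ ⁻¹' range
      ((↑) : (E ≃L[ℝ] E) → E →L[ℝ] E)), ContDiffAt ℝ ∞ H.symm z ∧ Φ (H.symm z) = z ∧
      (∀ v, fderiv ℝ Φ (H.symm z) (fderiv ℝ H.symm z v) = v) ∧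
      ∀ e, fderiv ℝ H.symm z (fderiv ℝ Φ (H.symm z) e) = e := by
    rintro z ⟨hz, hD, L, hL⟩
    have dL : HasFDerivAt H (L : E →L[ℝ] E) (H.symm z) :=
      hL ▸ ((hΦa _ hD).differentiableAt (by simp)).hasFDerivAt
    have e1 := (H.hasFDerivAt_symm hz dL).fderiv
    refine ⟨H.contDiffAt_symm hz dL (hΦa _ hD), H.right_inv hz, fun v => ?_, fun e => ?_⟩ <;>
      simp [e1, ← hL]
  refine ⟨_, fun z => z₀ + Q (H.symm z), H.symm, hV,
    ⟨Φ0 ▸ H.map_source h0s, by rw [mem_preimage, hsy]; exact ⟨h0D, _, dΦ0.symm⟩⟩,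
    fun z hz => (key z hz).2.1 ▸ hJ.mem _ hz.2.1,
    fun z hz => (contDiffAt_const.add (Q.contDiff.contDiffAt.comp z (key z hz).1)).contDiffWithinAt,
    fun z hz => ?_⟩
  obtain ⟨k1, k2, k3, k4⟩ := key z hz
  have hzU : z ∈ U := k2 ▸ hJ.mem _ hz.2.1
  have dπ : ∀ v, fderiv ℝ (fun z => z₀ + Q (H.symm z)) z v = Q (fderiv ℝ H.symm z v) := fun v => by
    rw [show fderiv ℝ (fun z => z₀ + Q (H.symm z)) z = _ from
      ((Q.hasFDerivAt.comp z (k1.differentiableAt (by simp)).hasFDerivAt).const_add z₀).fderiv]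
    rfl
  have hQ0 : ∀ v, Q (p z₀ v) = 0 := fun v => by simp [hQ, h0]
  refine ⟨hz.2.1, k2, fun v hv => ?_, fun v => ⟨fderiv ℝ H.symm z v, ?_⟩⟩
  · have : fderiv ℝ Φ (H.symm z) (p z₀ v) = v := by
      rw [dΦ _ hz.2.1, hQ0, k2, h1 z hzU, hv, Prod.mk_zero_zero, map_zero, zero_add]
    rw [dπ, ← this, k4, hQ0]
  · rw [dπ]
    conv_lhs => rw [← k3 v, dΦ _ hz.2.1, k2]

theorem bas : BasS := by
  intro E G _ _ _ _ _ _ θ O hO ⟨z₁, hz₁⟩ hθ hs
  have := FiniteDimensional.complete ℝ E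
  have := FiniteDimensional.complete ℝ G
  obtain ⟨U₁, ρ, hU₁, hzU₁, hU₁O, hρ, hθρ⟩ := ri E E G θ O z₁ hO hz₁ hθ (hs z₁ hz₁)
  have hθ1 := hθ.mono hU₁O
  have hD : ContDiffOn ℝ ∞ (fderiv ℝ θ) U₁ := hθ1.fderiv_of_isOpen hU₁ (by simp)
  let κ : E → E →L[ℝ] G × (E →L[ℝ] G) := fun z => (θ z).prod
    (((ContinuousLinearMap.compL ℝ E E G).flip (1 - ρ z ∘L θ z)) ∘L
      (fderiv ℝ θ z - (fderiv ℝ θ z).flip))
  have hκ : ContDiffOn ℝ ∞ κ U₁ := by
    refine contDiffOn_clm_apply.2 fun v => (hθ1.clm_apply contDiffOn_const).prodMk ?_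
    refine contDiffOn_clm_apply.2 fun w => ?_
    have hw : ContDiffOn ℝ ∞ (fun z => w - ρ z (θ z w)) U₁ :=
      contDiffOn_const.sub (hρ.clm_apply (hθ1.clm_apply contDiffOn_const))
    exact (((hD.clm_apply (contDiffOn_const (c := v))).clm_apply hw).sub
      ((hD.clm_apply hw).clm_apply (contDiffOn_const (c := v)))).congr fun z _ => by simp
  have hκC : ∀ z ∈ U₁, ∀ v, κ z v = 0 ↔ Ch θ z v := fun z hz v => by
    have e : ∀ w, (κ z v).2 w = dF θ z v (w - ρ z (θ z w)) := fun w => by simp [κ, dF]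
    rw [Prod.ext_iff]
    refine and_congr Iff.rfl ⟨fun h w hw => ?_, fun h => ?_⟩
    · have := e w
      rw [h, hw, map_zero, sub_zero] at this
      exact this.symm
    · ext w
      rw [e]
      exact h _ (by rw [map_sub, hθρ z hz, sub_self])
  obtain ⟨z₀, U, p, hU, hz₀, hUU, hp, hpp⟩ := ker E E _ κ U₁ hU₁ ⟨z₁, hzU₁⟩ hκ
  have hCh : ∀ z ∈ U, ∀ v, Ch θ z v ↔ p z v = v := fun z hz v =>
    (hκC z (hUU hz) v).symm.trans ((hpp z hz).2.2 v)
  have hpC : ∀ z ∈ U, ∀ ξ, Ch θ z (p z ξ) := fun z hz ξ => (hCh z hz _).2 (by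
    rw [← (hpp z hz).2.1, (hpp z hz).1, (hpp z hz).2.1])
  have hθU := hθ1.mono hUU
  have hcomm : ∀ z ∈ U, ∀ ξ ξ', fderiv ℝ p z (p z ξ) ξ' = fderiv ℝ p z (p z ξ') ξ := by
    intro z hz ξ ξ'
    have dp := ((hp.contDiffAt (hU.mem_nhds hz)).differentiableAt (by simp)).hasFDerivAt
    have e : ∀ a v, fderiv ℝ (fun z => p z a) z v = fderiv ℝ p z v a := fun a v => by
      rw [show fderiv ℝ (fun z => p z a) z = _ from
        (dp.clm_apply (hasFDerivAt_const a z)).fderiv]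
      simp
    have e0 : ∀ a v, p z₀ (fderiv ℝ p z v a) = 0 := fun a v => by
      have d := (p z₀).hasFDerivAt.comp z (dp.clm_apply (hasFDerivAt_const a z))
      have c : (p z₀ ∘ fun z => p z a) =ᶠ[𝓝 z] fun _ => p z₀ a := by
        filter_upwards [hU.mem_nhds hz] with y hy using (hpp y hy).1 a
      simpa using congrArg (fun L => L v)
        ((d.congr_of_eventuallyEq c.symm).unique (hasFDerivAt_const _ _))
    have := invol E G θ ρ U (fun z => p z ξ) (fun z => p z ξ') hU hθU (hρ.mono hUU)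
      (fun z hz => hθρ z (hUU hz)) (hp.clm_apply contDiffOn_const)
      (hp.clm_apply contDiffOn_const) (fun z hz => hpC z hz ξ) (fun z hz => hpC z hz ξ') z hz
    rw [hCh z hz, e, e, ← (hpp z hz).2.1, map_sub (p z₀), e0, e0, sub_zero, map_zero] at this
    exact sub_eq_zero.1 this.symm
  obtain ⟨D, J, hJ⟩ := jf E E p U hU hp hcomm
  have hi := inv E E G θ ρ p U D J hU hθU (hρ.mono hUU).continuousOn (fun z hz => hθρ z (hUU hz))
    hp.continuousOn hpC hJ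
  obtain ⟨V, π, Ψ, hV, hzV, hVU, hπ, hk⟩ :=
    frobJ hU hz₀ (hpp z₀ hz₀).1 (fun z hz => (hpp z hz).2.1) hJ
  have hπU : ∀ z ∈ V, π z ∈ U := fun z hz => hJ.mem1 _ (hk z hz).1
  have hker : ∀ z ∈ V, ∀ v, θ z v = 0 ↔ θ (π z) (fderiv ℝ π z v) = 0 := fun z hz v => by
    obtain ⟨k1, k2, -, k4⟩ := hk z hz
    obtain ⟨e, he⟩ := k4 v
    rw [← hi _ k1, k2]
    conv_lhs => rw [he, map_add, (hpC z (hVU hz) e).1, add_zero]
  have hA : ∀ z ∈ V, ((θ (π z) ∘L fderiv ℝ π z) ∘L ρ z) ∘L θ z = θ (π z) ∘L fderiv ℝ π z :=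
    fun z hz => by
      ext v
      have := (hker z hz (v - ρ z (θ z v))).1 (by rw [map_sub, hθρ z (hUU (hVU hz)), sub_self])
      rw [map_sub, map_sub, sub_eq_zero] at this
      exact this.symm
  refine ⟨V, fun z => (θ (π z) ∘L fderiv ℝ π z) ∘L ρ z, hV, ⟨z₀, hzV⟩,
    hVU.trans (hUU.trans hU₁O), ((hθU.comp hπ hπU).clm_comp
      (hπ.fderiv_of_isOpen hV (by simp))).clm_comp (hρ.mono (hVU.trans hUU)), fun z hz => ⟨?_, ?_⟩⟩
  · refine (injective_iff_map_eq_zero _).2 fun g hg => ?_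
    rw [← hθρ z (hUU (hVU hz)) g]
    exact (hker z hz _).2 hg
  · intro v hv w
    rw [dF_congr (θ' := fun z => θ (π z) ∘L fderiv ℝ π z)
      (by filter_upwards [hV.mem_nhds hz] with y hy using hA y hy),
      dF_pull ((hπ.contDiffAt (hV.mem_nhds hz)).of_le two_le')
        ((hθU.contDiffAt (hU.mem_nhds (hπU z hz))).differentiableAt (by simp)),
      (hk z hz).2.2.1 v ((hCh z (hVU hz) v).1 hv)]
    simp [dF]

end Crest.Agent.N221.Fr
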