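import Mathlib

/-! Row 221, block Fr (Frobenius and basic frames): definitions and leaf statements.
Pure Mathlib, one chart `E`. -/

set_option autoImplicit false

open Set Filter Topology
open scoped ContDiff

noncomputable section

namespace Crest.Agent.N221.Fr

variable {E G : Type} [NormedAddCommGroup E] [NormedSpace ℝ E] [NormedAddCommGroup G]
  [NormedSpace ℝ G]

/-- exterior derivative of a `G`-valued one-form -/
def dF (θ : E → E →L[ℝ] G) (z v w : E) : G := fderiv ℝ θ z v w - fderiv ℝ θ z w v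

/-- Cauchy characteristic directions of the distribution `ker θ` at `z` -/
def Ch (θ : E → E →L[ℝ] G) (z v : E) : Prop :=
  θ z v = 0 ∧ ∀ w, θ z w = 0 → dF θ z v w = 0

/-- (KER) near a point of maximal rank the kernel of a smooth family is the range of a smooth
family `p` of projectors with constant kernel: `p z₀ ∘ p z = p z₀`, `p z ∘ p z₀ = p z`. -/
def KerS : Prop :=
  ∀ (E E' H : Type) [NormedAddCommGroup E] [NormedSpace ℝ E] [NormedAddCommGroup E']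
    [NormedSpace ℝ E'] [FiniteDimensional ℝ E'] [NormedAddCommGroup H] [NormedSpace ℝ H]
    [FiniteDimensional ℝ H] (κ : E → E' →L[ℝ] H) (O : Set E), IsOpen O → O.Nonempty →
    ContDiffOn ℝ ∞ κ O →
    ∃ (z₀ : E) (U : Set E) (p : E → E' →L[ℝ] E'), IsOpen U ∧ z₀ ∈ U ∧ U ⊆ O ∧
      ContDiffOn ℝ ∞ p U ∧ ∀ z ∈ U, (∀ v, p z₀ (p z v) = p z₀ v) ∧ (∀ v, p z (p z₀ v) = p z v) ∧
        ∀ v, κ z v = 0 ↔ p z v = v

/-- (RI) a smooth family onto at `z₀` has a smooth right inverse near `z₀` -/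
def RiS : Prop :=
  ∀ (E E' G : Type) [NormedAddCommGroup E] [NormedSpace ℝ E] [NormedAddCommGroup E']
    [NormedSpace ℝ E'] [FiniteDimensional ℝ E'] [NormedAddCommGroup G] [NormedSpace ℝ G]
    [FiniteDimensional ℝ G] (θ : E → E' →L[ℝ] G) (O : Set E) (z₀ : E), IsOpen O → z₀ ∈ O →
    ContDiffOn ℝ ∞ θ O → Function.Surjective (θ z₀) →
    ∃ (U : Set E) (ρ : E → G →L[ℝ] E'), IsOpen U ∧ z₀ ∈ U ∧ U ⊆ O ∧ ContDiffOn ℝ ∞ ρ U ∧
      ∀ z ∈ U, ∀ g, θ z (ρ z g) = g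

/-- (INVOL) the Cauchy characteristic is involutive -/
def InvolS : Prop :=
  ∀ (E G : Type) [NormedAddCommGroup E] [NormedSpace ℝ E] [CompleteSpace E]
    [NormedAddCommGroup G] [NormedSpace ℝ G] (θ : E → E →L[ℝ] G) (ρ : E → G →L[ℝ] E) (U : Set E)
    (A B : E → E), IsOpen U → ContDiffOn ℝ ∞ θ U → ContDiffOn ℝ ∞ ρ U →
    (∀ z ∈ U, ∀ g, θ z (ρ z g) = g) → ContDiffOn ℝ ∞ A U → ContDiffOn ℝ ∞ B U →
    (∀ z ∈ U, Ch θ z (A z)) → (∀ z ∈ U, Ch θ z (B z)) →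
    ∀ z ∈ U, Ch θ z (fderiv ℝ B z (A z) - fderiv ℝ A z (B z))

/-- joint flow `J` on `D` of the commuting family `X` inside `U` -/
structure JF {F : Type} [NormedAddCommGroup F] [NormedSpace ℝ F] (X : E → F →L[ℝ] E) (U : Set E)
    (D : Set (E × F)) (J : E × F → E) : Prop where
  op : IsOpen D
  zero : ∀ y ∈ U, (y, (0 : F)) ∈ D
  sm : ContDiffOn ℝ ∞ J D
  mem : ∀ p ∈ D, J p ∈ U
  mem1 : ∀ p ∈ D, p.1 ∈ U
  init : ∀ y ∈ U, J (y, 0) = y
  star : ∀ p ∈ D, ∀ t ∈ Icc (0 : ℝ) 1, (p.1, t • p.2) ∈ D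
  der : ∀ p ∈ D, ∀ ξ, fderiv ℝ J p (0, ξ) = X (J p) ξ

/-- (JF) commuting fields have a joint flow -/
def JfS : Prop :=
  ∀ (E F : Type) [NormedAddCommGroup E] [NormedSpace ℝ E] [CompleteSpace E]
    [NormedAddCommGroup F] [NormedSpace ℝ F] [CompleteSpace F] (X : E → F →L[ℝ] E) (U : Set E),
    IsOpen U → ContDiffOn ℝ ∞ X U →
    (∀ z ∈ U, ∀ ξ ξ', fderiv ℝ X z (X z ξ) ξ' = fderiv ℝ X z (X z ξ') ξ) →
    ∃ D J, JF X U D J

/-- (INV) the joint flow of characteristic fields preserves `ker θ` -/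
def InvS : Prop :=
  ∀ (E F G : Type) [NormedAddCommGroup E] [NormedSpace ℝ E] [CompleteSpace E]
    [NormedAddCommGroup F] [NormedSpace ℝ F] [CompleteSpace F] [NormedAddCommGroup G]
    [NormedSpace ℝ G] [CompleteSpace G] (θ : E → E →L[ℝ] G) (ρ : E → G →L[ℝ] E)
    (X : E → F →L[ℝ] E) (U : Set E) (D : Set (E × F)) (J : E × F → E), IsOpen U →
    ContDiffOn ℝ ∞ θ U → ContinuousOn ρ U → (∀ z ∈ U, ∀ g, θ z (ρ z g) = g) →
    ContinuousOn X U → (∀ z ∈ U, ∀ ξ, Ch θ z (X z ξ)) → JF X U D J →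
    ∀ p ∈ D, ∀ β, θ (J p) (fderiv ℝ J p (β, 0)) = 0 ↔ θ p.1 β = 0

/-- (BASIC) on a smaller open set `ker θ` is cut out by a form `A θ` whose differential is killed
by every characteristic direction -/
def BasS : Prop :=
  ∀ (E G : Type) [NormedAddCommGroup E] [NormedSpace ℝ E] [FiniteDimensional ℝ E]
    [NormedAddCommGroup G] [NormedSpace ℝ G] [FiniteDimensional ℝ G] (θ : E → E →L[ℝ] G)
    (O : Set E), IsOpen O → O.Nonempty → ContDiffOn ℝ ∞ θ O →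
    (∀ z ∈ O, Function.Surjective (θ z)) →
    ∃ (U : Set E) (A : E → G →L[ℝ] G), IsOpen U ∧ U.Nonempty ∧ U ⊆ O ∧ ContDiffOn ℝ ∞ A U ∧
      ∀ z ∈ U, Function.Injective (A z) ∧
        ∀ v, Ch θ z v → ∀ w, dF (fun z => A z ∘L θ z) z v w = 0

end Crest.Agent.N221.Fr
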