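import Crest.Agent.N221.Fr.Jf

/-! Row 221, block Fr: the smooth Frobenius theorem (straightening chart) for an involutive
distribution given as the range of a smooth family of projectors. Port of `R266/Frob`. -/

set_option autoImplicit false
set_option linter.unusedSectionVars false

open Set Filter Topology
open scoped ContDiff

noncomputable section

namespace Crest.Agent.N221.Fr

theorem proj_alg {A : Type*} [Ring A] {p p₀ s : A} (hp : p * p = p) (hp₀ : p₀ * p₀ = p₀)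
    (hs : s = p₀ * p + (1 - p₀) * (1 - p)) (hu : IsUnit s) :
    (Ring.inverse s * p₀) * p₀ = Ring.inverse s * p₀ ∧
    p₀ * (Ring.inverse s * p₀) = p₀ ∧ p * (Ring.inverse s * p₀) = Ring.inverse s * p₀ ∧
    (Ring.inverse s * p₀) * p = p := by
  have e1 : p₀ * (1 - p₀) = 0 := by rw [mul_sub, mul_one, hp₀, sub_self]
  have e2 : (1 - p) * p = 0 := by rw [sub_mul, one_mul, hp, sub_self]
  have h1 : p₀ * s = p₀ * p := by
    rw [hs, mul_add, ← mul_assoc, hp₀, ← mul_assoc, e1, zero_mul, add_zero]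
  have h2 : s * p = p₀ * p := by
    rw [hs, add_mul, mul_assoc, hp, mul_assoc (1 - p₀), e2, mul_zero, add_zero]
  have hi1 : Ring.inverse s * s = 1 := Ring.inverse_mul_cancel _ hu
  have hi2 : s * Ring.inverse s = 1 := Ring.mul_inverse_cancel _ hu
  have h3 : Ring.inverse s * p₀ = p * Ring.inverse s := by
    calc Ring.inverse s * p₀ = Ring.inverse s * (p₀ * s) * Ring.inverse s := by
          rw [mul_assoc, mul_assoc, hi2, mul_one]
      _ = Ring.inverse s * (s * p) * Ring.inverse s := by rw [h1, h2]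
      _ = p * Ring.inverse s := by rw [← mul_assoc, hi1, one_mul]
  refine ⟨by rw [mul_assoc, hp₀], ?_, ?_, ?_⟩
  · rw [h3, ← mul_assoc, ← h1, mul_assoc, hi2, mul_one]
  · rw [← mul_assoc, ← h3, mul_assoc, hp₀]
  · rw [mul_assoc, ← h2, ← mul_assoc, hi1, one_mul]

/-- smooth inverse function theorem on an open set -/
theorem exists_smooth_chart {E F : Type*} [NormedAddCommGroup E] [NormedSpace ℝ E]
    [CompleteSpace E] [NormedAddCommGroup F] [NormedSpace ℝ F] {f : E → F} {x : E} {V : Set E}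
    (hV : IsOpen V) (hx : x ∈ V) (hf : ContDiffOn ℝ ∞ f V) (f' : E ≃L[ℝ] F)
    (hf' : HasFDerivAt f (f' : E →L[ℝ] F) x) :
    ∃ e : OpenPartialHomeomorph E F, x ∈ e.source ∧ e.source ⊆ V ∧ (∀ y, e y = f y) ∧
      ContDiffOn ℝ ∞ e e.source ∧ ContDiffOn ℝ ∞ e.symm e.target := by
  have hcd : ContDiffAt ℝ ∞ f x := hf.contDiffAt (hV.mem_nhds hx)
  set e₀ := hcd.toOpenPartialHomeomorph f hf' (by simp) with he₀
  have hx₀ : x ∈ e₀.source := hcd.mem_toOpenPartialHomeomorph_source hf' (by simp)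
  have hinv : ∀ᶠ y in 𝓝 x, ∃ g' : E ≃L[ℝ] F, (g' : E →L[ℝ] F) = fderiv ℝ f y := by
    have h1 : ContinuousAt (fderiv ℝ f) x := (hcd.fderiv_right (m := 0) (by simp)).continuousAt
    have h2 : (range ((↑) : (E ≃L[ℝ] F) → (E →L[ℝ] F))) ∈ 𝓝 (fderiv ℝ f x) := by
      rw [hf'.fderiv]
      exact ContinuousLinearEquiv.nhds f'
    filter_upwards [h1 h2] with y hy
    exact hy
  obtain ⟨W, hW, hWo, hxW⟩ := _root_.eventually_nhds_iff.1 (hinv.and (hV.mem_nhds hx))
  refine ⟨e₀.restrOpen W hWo, ⟨hx₀, hxW⟩, fun y hy => (hW y hy.2).2, fun y => rfl,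
    hf.mono fun y hy => (hW y hy.2).2, fun z hz => ?_⟩
  have hsy : (e₀.restrOpen W hWo).symm z ∈ (e₀.restrOpen W hWo).source :=
    (e₀.restrOpen W hWo).map_target hz
  obtain ⟨⟨g', hg'⟩, hyV⟩ := hW _ hsy.2
  have hAy := hf.contDiffAt (hV.mem_nhds hyV)
  refine (OpenPartialHomeomorph.contDiffAt_symm _ hz (f₀' := g') ?_ hAy).contDiffWithinAt
  rw [hg']
  exact (hAy.differentiableAt (by simp)).hasFDerivAt

section Comm
variable {E : Type*} [NormedAddCommGroup E] [NormedSpace ℝ E]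
  {P W : E → E →L[ℝ] E} {P₀ : E →L[ℝ] E} {x : E}

theorem fderiv_mul_apply' {A B : E → E →L[ℝ] E} (hA : DifferentiableAt ℝ A x)
    (hB : DifferentiableAt ℝ B x) (a v : E) :
    fderiv ℝ (fun y => A y * B y) x a v = fderiv ℝ A x a (B x v) + A x (fderiv ℝ B x a v) := by
  have h := (hA.hasFDerivAt.mul' hB.hasFDerivAt).fderiv
  show fderiv ℝ (A * B) x a v = _
  rw [h]
  simp [add_comm]

theorem comm_W (hP : DifferentiableAt ℝ P x) (hW : DifferentiableAt ℝ W x)
    (h1 : ∀ᶠ y in 𝓝 x, P₀ * W y = P₀) (h2 : ∀ᶠ y in 𝓝 x, P y * W y = W y)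
    (h3 : W x * P x = P x) (h4 : W x * P₀ = W x)
    (hint : ∀ u v, P x u = u → P x v = v → fderiv ℝ P x u v = fderiv ℝ P x v u) (u v : E) :
    fderiv ℝ W x (W x u) v = fderiv ℝ W x (W x v) u := by
  have hPW : ∀ w, P x (W x w) = W x w := fun w => by
    have := congrArg (fun L : E →L[ℝ] E => L w) h2.self_of_nhds
    simpa using this
  have e2 : ∀ a w, fderiv ℝ P x a (W x w) + P x (fderiv ℝ W x a w) = fderiv ℝ W x a w := by
    intro a w
    rw [← fderiv_mul_apply' hP hW, Filter.EventuallyEq.fderiv_eq (f := W) h2]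
  have e1 : ∀ a w, P₀ (fderiv ℝ W x a w) = 0 := by
    intro a w
    have h5 := fderiv_mul_apply' (x := x) (A := fun _ => P₀) (B := W)
      (differentiableAt_const P₀) hW a w
    rw [Filter.EventuallyEq.fderiv_eq (f := fun _ => P₀) h1] at h5
    simpa using h5.symm
  have e3 : ∀ w, W x (P x w) = P x w := fun w => by
    have := congrArg (fun L : E →L[ℝ] E => L w) h3
    simpa using this
  have e4 : ∀ w, W x (P₀ w) = W x w := fun w => by
    have := congrArg (fun L : E →L[ℝ] E => L w) h4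
    simpa using this
  set Z := fderiv ℝ W x (W x u) v - fderiv ℝ W x (W x v) u with hZ
  have hi := hint (W x u) (W x v) (hPW u) (hPW v)
  have hPZ : P x Z = Z := by
    rw [hZ, map_sub]
    have a1 := e2 (W x u) v
    have a2 := e2 (W x v) u
    rw [hi] at a1
    rw [← a1, ← a2]
    simp only [map_add]
    rw [← sub_eq_zero]
    have b1 : P x (P x (fderiv ℝ W x (W x u) v)) = P x (fderiv ℝ W x (W x u) v) := by
      rw [← e3 (fderiv ℝ W x (W x u) v), hPW]
    have b2 : P x (P x (fderiv ℝ W x (W x v) u)) = P x (fderiv ℝ W x (W x v) u) := by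
      rw [← e3 (fderiv ℝ W x (W x v) u), hPW]
    rw [b1, b2]
    abel
  have hP0Z : P₀ Z = 0 := by rw [hZ, map_sub, e1, e1, sub_zero]
  have hZ0 : Z = 0 := by
    calc Z = P x Z := hPZ.symm
      _ = W x (P x Z) := (e3 Z).symm
      _ = W x Z := by rw [hPZ]
      _ = W x (P₀ Z) := (e4 Z).symm
      _ = 0 := by rw [hP0Z, map_zero]
  exact sub_eq_zero.1 hZ0

end Comm

variable {E : Type} [NormedAddCommGroup E] [NormedSpace ℝ E] [CompleteSpace E]
  {P : E → E →L[ℝ] E} {U : Set E}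

/-- the commuting frame `W` of an involutive distribution, normalised by `P x₀ ∘ W = P x₀` -/
theorem exists_comm_frame (hU : IsOpen U) (hP : ContDiffOn ℝ ∞ P U)
    (hid : ∀ x ∈ U, ∀ v, P x (P x v) = P x v)
    (hint : ∀ x ∈ U, ∀ u v, P x u = u → P x v = v → fderiv ℝ P x u v = fderiv ℝ P x v u)
    {x₀ : E} (hx₀ : x₀ ∈ U) :
    ∃ (U' : Set E) (W : E → E →L[ℝ] E), IsOpen U' ∧ x₀ ∈ U' ∧ U' ⊆ U ∧ ContDiffOn ℝ ∞ W U' ∧
      W x₀ = P x₀ ∧
      (∀ x ∈ U', W x * P x₀ = W x ∧ P x₀ * W x = P x₀ ∧ P x * W x = W x ∧ W x * P x = P x) ∧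
      ∀ x ∈ U', ∀ u v, fderiv ℝ W x (W x u) v = fderiv ℝ W x (W x v) u := by
  set P₀ := P x₀ with hP₀
  have hmul : ∀ x ∈ U, P x * P x = P x := fun x hx => ContinuousLinearMap.ext fun v => hid x hx v
  have hmul₀ : P₀ * P₀ = P₀ := hmul x₀ hx₀
  set S : E → E →L[ℝ] E := fun x => P₀ * P x + (1 - P₀) * (1 - P x) with hS
  have hSan : ContDiffOn ℝ ∞ S U :=
    (contDiffOn_const.mul hP).add (contDiffOn_const.mul (contDiffOn_const.sub hP))
  have hS₀ : S x₀ = 1 := by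
    simp only [hS]
    rw [← hP₀, hmul₀, mul_sub, mul_one, sub_mul, one_mul, hmul₀, sub_self, sub_zero]
    abel
  set U' : Set E := U ∩ S ⁻¹' {s | IsUnit s} with hU'
  have hU'o : IsOpen U' := hSan.continuousOn.isOpen_inter_preimage hU Units.isOpen
  set W : E → E →L[ℝ] E := fun x => Ring.inverse (S x) * P₀ with hW
  have hWan : ContDiffOn ℝ ∞ W U' := fun x hx => by
    have h1 : ContDiffAt ℝ ∞ (fun x => Ring.inverse (S x)) x := by
      obtain ⟨u, hu⟩ := hx.2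
      have h2 : ContDiffAt ℝ ∞ Ring.inverse (S x) := by
        rw [← hu]
        exact contDiffAt_ringInverse ℝ u
      exact h2.comp x (hSan.contDiffAt (hU.mem_nhds hx.1))
    exact (h1.mul contDiffAt_const).contDiffWithinAt
  have hfacts : ∀ x ∈ U', W x * P₀ = W x ∧ P₀ * W x = P₀ ∧ P x * W x = W x ∧ W x * P x = P x :=
    fun x hx => proj_alg (hmul x hx.1) hmul₀ rfl hx.2
  refine ⟨U', W, hU'o, ⟨hx₀, by simp [hS₀]⟩, inter_subset_left, hWan, ?_, hfacts,
    fun x hx u v => ?_⟩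
  · simp only [hW, hS₀, Ring.inverse_one, one_mul]
  · have hnear : ∀ᶠ y in 𝓝 x, y ∈ U' := hU'o.mem_nhds hx
    exact comm_W (P₀ := P₀) ((hP.contDiffAt (hU.mem_nhds hx.1)).differentiableAt (by simp))
      ((hWan.contDiffAt hnear).differentiableAt (by simp))
      (hnear.mono fun y hy => (hfacts y hy).2.1) (hnear.mono fun y hy => (hfacts y hy).2.2.1)
      (hfacts x hx).2.2.2 (hfacts x hx).1 (hint x hx.1) u v

/-- **Frobenius**: an involutive distribution `ran P` is straightened near `x₀` by a smooth chart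
`e` with `e x₀ = 0`, `D e x₀ = 1`, mapping `ran (P x)` onto `ran (P x₀)`. -/
theorem frob (hU : IsOpen U) (hP : ContDiffOn ℝ ∞ P U)
    (hid : ∀ x ∈ U, ∀ v, P x (P x v) = P x v)
    (hint : ∀ x ∈ U, ∀ u v, P x u = u → P x v = v → fderiv ℝ P x u v = fderiv ℝ P x v u)
    {x₀ : E} (hx₀ : x₀ ∈ U) :
    ∃ e : OpenPartialHomeomorph E E, x₀ ∈ e.source ∧ e.source ⊆ U ∧ e x₀ = 0 ∧
      ContDiffOn ℝ ∞ e e.source ∧ ContDiffOn ℝ ∞ e.symm e.target ∧ HasFDerivAt e (1 : E →L[ℝ] E) x₀ ∧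
      ∀ x ∈ e.source, ∀ v, P x v = v ↔ P x₀ (fderiv ℝ e x v) = fderiv ℝ e x v := by
  obtain ⟨U', W, hU'o, hx₀', hU'U, hWs, hWx₀, hfacts, hcomm⟩ :=
    exists_comm_frame hU hP hid hint hx₀
  set P₀ := P x₀ with hP₀
  obtain ⟨D, J, hJ⟩ := jf E E W U' hU'o hWs hcomm
  set L : E → E × E := fun z => (x₀ + (1 - P₀) z, P₀ z) with hL
  have hLd : ∀ z, HasFDerivAt L ((1 - P₀).prod P₀) z := fun z =>
    ((1 - P₀ : E →L[ℝ] E).hasFDerivAt.const_add x₀).prodMk P₀.hasFDerivAt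
  have hLs : ContDiff ℝ ∞ L :=
    (contDiff_const.add (1 - P₀ : E →L[ℝ] E).contDiff).prodMk P₀.contDiff
  set Ψ : E → E := fun z => J (L z) with hΨ
  have hV : IsOpen (L ⁻¹' D) := hJ.op.preimage hLs.continuous
  have hL0 : L 0 = (x₀, 0) := by simp [hL]
  have h0V : (0 : E) ∈ L ⁻¹' D := by
    rw [mem_preimage, hL0]
    exact hJ.zero _ hx₀'
  have hΨs : ContDiffOn ℝ ∞ Ψ (L ⁻¹' D) := hJ.sm.comp hLs.contDiffOn fun _ h => h
  have hΨ0 : Ψ 0 = x₀ := by
    simp only [hΨ, hL0]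
    exact hJ.init _ hx₀'
  have hJd : ∀ p ∈ D, HasFDerivAt J (fderiv ℝ J p) p := fun p hp =>
    ((hJ.sm.contDiffAt (hJ.op.mem_nhds hp)).differentiableAt (by simp)).hasFDerivAt
  have hΨd : ∀ z ∈ L ⁻¹' D, HasFDerivAt Ψ ((fderiv ℝ J (L z)).comp ((1 - P₀).prod P₀)) z :=
    fun z hz => (hJd _ hz).comp z (hLd z)
  have hP₀id : ∀ v, P₀ (P₀ v) = P₀ v := hid x₀ hx₀
  -- derivative in the leaf directions
  have hΨl : ∀ z ∈ L ⁻¹' D, ∀ σ, P₀ σ = σ → fderiv ℝ Ψ z σ = W (Ψ z) σ := by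
    intro z hz σ hσ
    rw [(hΨd z hz).fderiv]
    simp only [ContinuousLinearMap.comp_apply, ContinuousLinearMap.prod_apply]
    rw [show ((1 - P₀ : E →L[ℝ] E) σ) = 0 by simp [hσ], hσ]
    exact hJ.der _ hz σ
  have hΨ0' : HasFDerivAt Ψ (1 : E →L[ℝ] E) 0 := by
    have h1 : HasFDerivAt J (fderiv ℝ J (x₀, 0)) (x₀, 0) := hJd _ (hJ.zero _ hx₀')
    have h4 : HasFDerivAt (fun y => J (y, 0))
        ((fderiv ℝ J (x₀, 0)).comp (ContinuousLinearMap.inl ℝ E E)) x₀ :=
      HasFDerivAt.comp x₀ (f := fun y : E => ((y, 0) : E × E)) (g := J) h1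
        (hasFDerivAt_prodMk_left x₀ 0)
    have h5 : (fun y => J (y, (0 : E))) =ᶠ[𝓝 x₀] fun y => y := by
      filter_upwards [hU'o.mem_nhds hx₀'] with y hy
      exact hJ.init y hy
    have h6 := (h4.congr_of_eventuallyEq h5.symm).unique (hasFDerivAt_id x₀)
    refine (hΨd 0 h0V).congr_fderiv (ContinuousLinearMap.ext fun ζ => ?_)
    have h7 : fderiv ℝ J (x₀, 0) ((1 - P₀ : E →L[ℝ] E) ζ, 0) = (1 - P₀ : E →L[ℝ] E) ζ :=
      congrArg (fun T : E →L[ℝ] E => T ((1 - P₀ : E →L[ℝ] E) ζ)) h6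
    have h8 := hJ.der _ (hJ.zero _ hx₀') (P₀ ζ)
    rw [hJ.init _ hx₀', hWx₀, hP₀id] at h8
    simp only [ContinuousLinearMap.comp_apply, ContinuousLinearMap.prod_apply, hL0]
    rw [show (((1 - P₀ : E →L[ℝ] E) ζ, P₀ ζ) : E × E) = ((1 - P₀ : E →L[ℝ] E) ζ, 0) + (0, P₀ ζ) by
      simp, map_add, h7, h8]
    simp
  obtain ⟨e, he0, heV, heΨ, hes, hess⟩ := exists_smooth_chart hV h0V hΨs
    (ContinuousLinearEquiv.refl ℝ E) hΨ0'
  have hee : (e : E → E) = Ψ := funext heΨ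
  have hx₀t : x₀ ∈ e.target := by
    have := e.map_source he0
    rwa [heΨ, hΨ0] at this
  have hsx₀ : e.symm x₀ = 0 := by
    have := e.left_inv he0
    rwa [heΨ, hΨ0] at this
  have hsd : ∀ x ∈ e.target, HasFDerivAt e.symm (fderiv ℝ e.symm x) x := fun x hx =>
    ((hess.contDiffAt (e.open_target.mem_nhds hx)).differentiableAt (by simp)).hasFDerivAt
  have hΨd' : ∀ x ∈ e.target, HasFDerivAt Ψ (fderiv ℝ Ψ (e.symm x)) (e.symm x) := fun x hx =>
    (hΨd _ (heV (e.map_target hx))).differentiableAt.hasFDerivAt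
  have hzx : ∀ x ∈ e.target, Ψ (e.symm x) = x := fun x hx => by rw [← heΨ, e.right_inv hx]
  have hcomp : ∀ x ∈ e.target, ∀ w, fderiv ℝ e.symm x (fderiv ℝ Ψ (e.symm x) w) = w := by
    intro x hx w
    have h2 : HasFDerivAt e.symm (fderiv ℝ e.symm x) (Ψ (e.symm x)) := by
      rw [hzx x hx]
      exact hsd x hx
    have h3 := h2.comp (e.symm x) (hΨd' x hx)
    have h4 : (e.symm ∘ Ψ) =ᶠ[𝓝 (e.symm x)] id := by
      filter_upwards [e.open_source.mem_nhds (e.map_target hx)] with y hy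
      simp only [Function.comp_apply, id]
      rw [← heΨ, e.left_inv hy]
    exact congrArg (fun T : E →L[ℝ] E => T w)
      ((h3.congr_of_eventuallyEq h4.symm).unique (hasFDerivAt_id _))
  have hcomp' : ∀ x ∈ e.target, ∀ w, fderiv ℝ Ψ (e.symm x) (fderiv ℝ e.symm x w) = w := by
    intro x hx w
    have h3 := (hΨd' x hx).comp x (hsd x hx)
    have h4 : (Ψ ∘ e.symm) =ᶠ[𝓝 x] id := by
      filter_upwards [e.open_target.mem_nhds hx] with y hy
      exact hzx y hy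
    exact congrArg (fun T : E →L[ℝ] E => T w)
      ((h3.congr_of_eventuallyEq h4.symm).unique (hasFDerivAt_id _))
  have hxU : ∀ x ∈ e.target, x ∈ U' := fun x hx => by
    have := hJ.mem _ (heV (e.map_target hx))
    rwa [show J (L (e.symm x)) = x from hzx x hx] at this
  refine ⟨e.symm, hx₀t, fun x hx => hU'U (hxU x hx), hsx₀, hess, hes, ?_, fun x hx v => ?_⟩
  · refine (hsd x₀ hx₀t).congr_fderiv (ContinuousLinearMap.ext fun w => ?_)
    have := hcomp x₀ hx₀t w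
    rw [hsx₀, hΨ0'.fderiv] at this
    exact this
  · have hz := heV (e.map_target hx)
    obtain ⟨f1, -, f3, f4⟩ := hfacts x (hxU x hx)
    constructor
    · intro hv
      have h1 : v = fderiv ℝ Ψ (e.symm x) (P₀ v) := by
        rw [hΨl _ hz _ (hP₀id _), hzx x hx]
        have h2 := congrArg (fun T : E →L[ℝ] E => T v) f4
        have h3 := congrArg (fun T : E →L[ℝ] E => T v) f1
        simp only [mul_apply_eq_comp, hv] at h2 h3
        rw [h3, h2]
      have h2 : fderiv ℝ e.symm x v = P₀ v := by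
        conv_lhs => rw [h1]
        exact hcomp x hx _
      show P₀ (fderiv ℝ e.symm x v) = fderiv ℝ e.symm x v
      rw [h2, hP₀id]
    · intro hv
      have h1 := hcomp' x hx v
      rw [hΨl _ hz _ hv, hzx x hx] at h1
      have h2 := congrArg (fun T : E →L[ℝ] E => T (fderiv ℝ e.symm x v)) f3
      simp only [mul_apply_eq_comp] at h2
      rwa [h1] at h2

end Crest.Agent.N221.Fr
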