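import Crest.Agent.N221.Fr.Defs
import Crest.Agent.Lib.ODEFlow

/-! Row 221, block Fr: the joint flow of a commuting family of vector fields. -/

set_option autoImplicit false
set_option linter.unusedSectionVars false

open Set Filter Topology
open scoped ContDiff

noncomputable section

namespace Crest.Agent.N221.Fr

open Crest.Agent.Lib

lemma two_le' : (2 : WithTop ℕ∞) ≤ ∞ := WithTop.coe_le_coe.2 (le_top : (2 : ℕ∞) ≤ ⊤)

lemma two_le : (1 : WithTop ℕ∞) + 1 ≤ ∞ := by rw [one_add_one_eq_two]; exact two_le'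

/-- a solution of a linear equation vanishing at `0` vanishes on `[0,1]` -/
lemma lin0 {G : Type} [NormedAddCommGroup G] [NormedSpace ℝ G] {A : ℝ → G →L[ℝ] G} {f : ℝ → G}
    (hA : ContinuousOn A (Icc 0 1)) (hf : ∀ t ∈ Icc (0 : ℝ) 1, HasDerivAt f (A t (f t)) t)
    (h0 : f 0 = 0) : ∀ t ∈ Icc (0 : ℝ) 1, f t = 0 := by
  obtain ⟨K, hK⟩ := isCompact_Icc.exists_bound_of_continuousOn hA
  intro t ht
  have := norm_le_gronwallBound_of_norm_deriv_right_le (f := f) (f' := fun t => A t (f t))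
    (δ := 0) (K := K) (ε := 0) (a := 0) (b := 1)
    (fun t ht => (hf t ht).continuousAt.continuousWithinAt)
    (fun t ht => (hf t (Ico_subset_Icc_self ht)).hasDerivWithinAt) (by simp [h0])
    (fun t ht => by
      simpa using ((A t).le_opNorm _).trans
        (mul_le_mul_of_nonneg_right (hK t (Ico_subset_Icc_self ht)) (norm_nonneg _))) t ht
  simpa [gronwallBound_ε0_δ0] using this

variable {E F : Type} [NormedAddCommGroup E] [NormedSpace ℝ E] [CompleteSpace E]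
  [NormedAddCommGroup F] [NormedSpace ℝ F] [CompleteSpace F]

/-- the extended field -/
def xV (X : E → F →L[ℝ] E) (p : E × F) : E × F := (X p.1 p.2, 0)

section

variable {X : E → F →L[ℝ] E} {U : Set E} (hU : IsOpen U) (hX : ContDiffOn ℝ ∞ X U)
include hU hX

lemma xV_sm : ContDiffOn ℝ ∞ (xV X) (U ×ˢ univ) :=
  ((hX.comp contDiffOn_fst fun _ h => h.1).clm_apply contDiffOn_snd).prodMk contDiffOn_const

lemma xV_one : ContDiffOn ℝ 1 (xV X) (U ×ˢ univ) := (xV_sm hU hX).of_le (by simp)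

lemma flow_snd {p : E × F} {t : ℝ} (h : (p, t) ∈ ODEFlow.dom (xV X) (U ×ˢ univ)) :
    (ODEFlow.flow (xV X) (U ×ˢ univ) (p, t)).2 = p.2 := by
  have hO : IsOpen (U ×ˢ (univ : Set F)) := hU.prod isOpen_univ
  have h1 := xV_one hU hX
  have hd : ∀ s ∈ uIcc 0 t, HasDerivAt (fun s => (ODEFlow.flow (xV X) (U ×ˢ univ) (p, s)).2)
      0 s := fun s hs => by
    simpa [xV, Function.comp_def] using (ContinuousLinearMap.snd ℝ E F).hasFDerivAt.comp_hasDerivAt s
      (ODEFlow.hasDerivAt_flow hO h1 (ODEFlow.mem_dom_of_uIcc h hs))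
  have := (convex_uIcc 0 t).norm_image_sub_le_of_norm_hasDerivWithin_le (C := 0)
    (fun s hs => (hd s hs).hasDerivWithinAt) (fun _ _ => by simp) left_mem_uIcc right_mem_uIcc
  rw [zero_mul, norm_le_zero_iff, sub_eq_zero] at this
  rw [this, ODEFlow.flow_zero hO h1 (ODEFlow.mem_of_mem_dom h)]

lemma flow_der {p : E × F} {t : ℝ} (h : (p, t) ∈ ODEFlow.dom (xV X) (U ×ˢ univ)) :
    HasDerivAt (fun s => (ODEFlow.flow (xV X) (U ×ˢ univ) (p, s)).1)
      (X (ODEFlow.flow (xV X) (U ×ˢ univ) (p, t)).1 p.2) t := by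
  have hO : IsOpen (U ×ˢ (univ : Set F)) := hU.prod isOpen_univ
  have := (ContinuousLinearMap.fst ℝ E F).hasFDerivAt.comp_hasDerivAt t
    (ODEFlow.hasDerivAt_flow hO (xV_one hU hX) h)
  simpa [xV, flow_snd hU hX h, Function.comp_def] using this

lemma flow_scale {p : E × F} (h : (p, (1 : ℝ)) ∈ ODEFlow.dom (xV X) (U ×ˢ univ)) {t : ℝ}
    (ht : t ∈ Icc (0 : ℝ) 1) : ((p.1, t • p.2), (1 : ℝ)) ∈ ODEFlow.dom (xV X) (U ×ˢ univ) := by
  have hO : IsOpen (U ×ˢ (univ : Set F)) := hU.prod isOpen_univ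
  have h1 := xV_one hU hX
  have hm : ∀ s ∈ uIcc (0 : ℝ) 1, (p, t * s) ∈ ODEFlow.dom (xV X) (U ×ˢ univ) := fun s hs => by
    rw [uIcc_of_le zero_le_one] at hs
    refine ODEFlow.mem_dom_of_uIcc h ?_
    rw [uIcc_of_le zero_le_one]
    exact ⟨mul_nonneg ht.1 hs.1, mul_le_one₀ ht.2 hs.1 hs.2⟩
  refine (ODEFlow.flow_of_integralCurve' hO h1
    (c := fun s => ((ODEFlow.flow (xV X) (U ×ˢ univ) (p, t * s)).1, t • p.2)) ?_ ?_ ?_).1
  · simp [ODEFlow.flow_zero hO h1 (ODEFlow.mem_of_mem_dom h)]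
  · exact fun s hs => ⟨(ODEFlow.flow_mem hO h1 (hm s hs)).1, trivial⟩
  · intro s hs
    have h2 := (flow_der hU hX (hm s hs)).scomp s ((hasDerivAt_id s).const_mul t)
    simpa [xV] using h2.prodMk (hasDerivAt_const s (t • p.2))

end

theorem jf : JfS := by
  intro E F _ _ _ _ _ _ X U hU hX hc
  have hO : IsOpen (U ×ˢ (univ : Set F)) := hU.prod isOpen_univ
  have h1 := xV_one hU hX
  set Dm := ODEFlow.dom (xV X) (U ×ˢ univ) with hDm
  have hDo : IsOpen Dm := ODEFlow.isOpen_dom hO h1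
  set Ψ : (E × F) × ℝ → E := fun q => (ODEFlow.flow (xV X) (U ×ˢ univ) q).1 with hΨ
  have hΨs : ContDiffOn ℝ ∞ Ψ Dm :=
    (ODEFlow.contDiffOn_flow (n := ⊤) (by simp) hO (xV_sm hU hX)).fst
  have hΨa : ∀ q ∈ Dm, ContDiffAt ℝ ∞ Ψ q := fun q hq => hΨs.contDiffAt (hDo.mem_nhds hq)
  have hΨm : ∀ q ∈ Dm, Ψ q ∈ U := fun q hq => (ODEFlow.flow_mem hO h1 hq).1
  have hXa : ∀ q ∈ Dm, ContDiffAt ℝ ∞ X (Ψ q) := fun q hq =>
    hX.contDiffAt (hU.mem_nhds (hΨm q hq))
  have hΨ0 : ∀ p : E × F, p.1 ∈ U → Ψ (p, 0) = p.1 := fun p hp => by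
    simp only [hΨ]; rw [ODEFlow.flow_zero hO h1 (x := p) ⟨hp, trivial⟩]
  -- time derivative
  have ht : ∀ q ∈ Dm, fderiv ℝ Ψ q (0, 1) = X (Ψ q) q.1.2 := fun q hq => by
    have a := ((hΨa q hq).differentiableAt (by simp)).hasFDerivAt.comp_hasDerivAt q.2
      (f := fun s : ℝ => (q.1, s)) ((hasDerivAt_const _ q.1).prodMk (hasDerivAt_id _))
    exact a.unique (flow_der hU hX (p := q.1) (t := q.2) hq)
  -- the key identity
  have key : ∀ p : E × F, (p, (1 : ℝ)) ∈ Dm → ∀ ξ,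
      fderiv ℝ Ψ (p, 1) ((0, ξ), 0) = X (Ψ (p, 1)) ξ := by
    intro p hp ξ
    have hm : ∀ t ∈ Icc (0 : ℝ) 1, (p, t) ∈ Dm := fun t ht =>
      ODEFlow.mem_dom_of_uIcc hp (by rwa [uIcc_of_le zero_le_one])
    have hc1 : ∀ t : ℝ, HasDerivAt (fun s : ℝ => (p, s)) ((0 : E × F), (1 : ℝ)) t := fun t =>
      (hasDerivAt_const _ p).prodMk (hasDerivAt_id _)
    have := lin0 (A := fun t => (fderiv ℝ X (Ψ (p, t))).flip p.2)
      (f := fun t => fderiv ℝ Ψ (p, t) ((0, ξ), 0) - t • X (Ψ (p, t)) ξ) ?_ ?_ ?_ 1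
      (right_mem_Icc.2 zero_le_one)
    · simpa [sub_eq_zero] using this
    · intro t ht
      have a : ContinuousAt (fun t : ℝ => fderiv ℝ X (Ψ (p, t))) t :=
        ((hXa _ (hm t ht)).fderiv_right (m := 0) (by simp)).continuousAt.comp
          (f := fun t : ℝ => Ψ (p, t))
          ((hΨa _ (hm t ht)).continuousAt.comp (f := fun t : ℝ => (p, t)) (by fun_prop))
      have b : Continuous fun L : E →L[ℝ] F →L[ℝ] E => L.flip p.2 :=
        ((ContinuousLinearMap.flipₗᵢ ℝ E F E).continuous).clm_apply continuous_const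
      exact (b.continuousAt.comp a).continuousWithinAt
    · intro t htt
      have hq := hm t htt
      have dΨ := ((hΨa _ hq).differentiableAt (by simp)).hasFDerivAt
      have dX := ((hXa _ hq).differentiableAt (by simp)).hasFDerivAt
      have d2 := (((hΨa _ hq).fderiv_right (m := 1) two_le).differentiableAt
        (by simp)).hasFDerivAt
      have sy := (hΨa _ hq).isSymmSndFDerivAt (by simpa using two_le')
      -- derivative of `D_w Ψ ξ`
      have a1 : HasDerivAt (fun s : ℝ => fderiv ℝ Ψ (p, s) ((0, ξ), 0))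
          (fderiv ℝ (fderiv ℝ Ψ) (p, t) (0, 1) ((0, ξ), 0)) t := by
        simpa using (d2.comp_hasDerivAt t (hc1 t)).clm_apply (hasDerivAt_const t ((0, ξ), 0))
      have a2 : fderiv ℝ (fderiv ℝ Ψ) (p, t) ((0, ξ), 0) (0, 1) =
          fderiv ℝ X (Ψ (p, t)) (fderiv ℝ Ψ (p, t) ((0, ξ), 0)) p.2 + X (Ψ (p, t)) ξ := by
        have e1 := d2.clm_apply (hasFDerivAt_const ((0 : E × F), (1 : ℝ)) (p, t))
        have e2 := (dX.comp (p, t) dΨ).clm_apply
          (hasFDerivAt_snd.comp (p, t) (hasFDerivAt_fst (𝕜 := ℝ) (p := (p, t))))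
        have e3 : (fun q => fderiv ℝ Ψ q (0, 1)) =ᶠ[𝓝 (p, t)] fun q => X (Ψ q) q.1.2 := by
          filter_upwards [hDo.mem_nhds hq] with q hq using ht q hq
        have e4 := congrArg (fun L => L ((0, ξ), 0)) ((e1.congr_of_eventuallyEq e3.symm).unique e2)
        simpa [add_comm] using e4
      have a3 : HasDerivAt (fun s : ℝ => X (Ψ (p, s)) ξ)
          (fderiv ℝ X (Ψ (p, t)) (X (Ψ (p, t)) p.2) ξ) t := by
        have := ((dX.comp (p, t) dΨ).comp_hasDerivAt t (hc1 t)).clm_apply (hasDerivAt_const t ξ)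
        simpa [ht _ hq] using this
      have a4 := a1.sub ((hasDerivAt_id t).smul a3)
      refine a4.congr_deriv ?_
      rw [sy, a2, hc _ (hΨm _ hq)]
      simp
    · have hp1 : p.1 ∈ U := (ODEFlow.mem_of_mem_dom hp).1
      have hq := hm 0 (left_mem_Icc.2 zero_le_one)
      have dΨ := ((hΨa _ hq).differentiableAt (by simp)).hasFDerivAt
      have e1 := dΨ.comp p (f := fun p' : E × F => (p', (0 : ℝ))) (hasFDerivAt_prodMk_left p 0)
      have e3 : (Ψ ∘ fun p' : E × F => (p', (0 : ℝ))) =ᶠ[𝓝 p] fun p' => p'.1 := by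
        filter_upwards [hO.mem_nhds (x := p) ⟨hp1, trivial⟩] with q hq using hΨ0 q hq.1
      have e4 := congrArg (fun L => L (0, ξ))
        ((e1.congr_of_eventuallyEq e3.symm).unique hasFDerivAt_fst)
      simpa using e4
  have hz : ∀ y ∈ U, (((y, 0) : E × F), (1 : ℝ)) ∈ Dm ∧ Ψ ((y, 0), 1) = y := fun y hy => by
    have := ODEFlow.flow_of_zero hO h1 (x := (y, 0)) ⟨hy, trivial⟩ (by simp [xV]) 1
    exact ⟨this.1, by simp only [hΨ]; rw [this.2]⟩
  refine ⟨{p | (p, (1 : ℝ)) ∈ Dm}, fun p => Ψ (p, 1), hDo.preimage (by fun_prop),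
    fun y hy => (hz y hy).1, hΨs.comp (by fun_prop) fun _ h => h, fun p hp => hΨm _ hp,
    fun p hp => (ODEFlow.mem_of_mem_dom hp).1, fun y hy => (hz y hy).2,
    fun p hp t ht => flow_scale hU hX hp ht, fun p hp ξ => ?_⟩
  have e1 := ((hΨa _ hp).differentiableAt (by simp)).hasFDerivAt.comp p
    (f := fun p' : E × F => (p', (1 : ℝ))) (hasFDerivAt_prodMk_left p 1)
  rw [show fderiv ℝ (fun p => Ψ (p, 1)) p = _ from e1.fderiv, ← key p hp ξ]
  simp

end Crest.Agent.N221.Fr
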