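import Crest.Agent.N221.Fr.Bas
import Crest.Agent.N221.Hu.SB2

/-! Row 221, block Fr: symplectic versions. Basic frames; the maximal bundle `I ⊆ Ch (I^Ω)`. -/

set_option autoImplicit false
set_option linter.unusedSectionVars false
set_option maxSynthPendingDepth 3

open Set Filter Topology Module
open scoped ContDiff

noncomputable section

namespace Crest.Agent.N221.Fr

open SB

variable {E : Type} [NormedAddCommGroup E] [NormedSpace ℝ E] [FiniteDimensional ℝ E]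
  {Ω : E →L[ℝ] E →L[ℝ] ℝ}

lemma om_surj (nd : ∀ v, (∀ w, Ω v w = 0) → v = 0) : Function.Surjective Ω := by
  have h : finrank ℝ E = finrank ℝ (E →L[ℝ] ℝ) := by
    rw [← (LinearMap.toContinuousLinearMap (𝕜 := ℝ) (E := E) (F' := ℝ)).finrank_eq]
    exact Subspace.dual_finrank_eq.symm
  exact (LinearMap.injective_iff_surjective_of_finrank_eq_finrank h (f := (Ω : E →ₗ[ℝ] _))).1
    ((injective_iff_map_eq_zero _).2 fun v hv => nd v fun w => by
      rw [show Ω v = 0 from hv]; rfl)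

/-- double orthogonal -/
lemma mem_of_perp (sk : ∀ v w, Ω v w = -Ω w v) (nd : ∀ v, (∀ w, Ω v w = 0) → v = 0)
    {K : Submodule ℝ E} {w : E} (h : ∀ y, (∀ k ∈ K, Ω k y = 0) → Ω y w = 0) : w ∈ K := by
  by_contra hw
  obtain ⟨l, h1, h2⟩ := K.exists_dual_map_eq_bot_of_notMem hw inferInstance
  obtain ⟨y, hy⟩ := om_surj nd (LinearMap.toContinuousLinearMap l)
  refine h1 ?_
  have := h y fun k hk => by
    have : l k = 0 := by
      have : l k ∈ K.map l := ⟨k, hk, rfl⟩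
      rwa [h2, Submodule.mem_bot] at this
    rw [sk, hy]; simp [this]
  rwa [hy] at this

lemma dF_om {ζ : E → E} {z : E} (h : DifferentiableAt ℝ ζ z) (v w : E) :
    dF (fun y => Ω (ζ y)) z v w = Ω (fderiv ℝ ζ z v) w - Ω (fderiv ℝ ζ z w) v := by
  simp only [dF]
  rw [show fderiv ℝ (fun y => Ω (ζ y)) z = _ from (Ω.hasFDerivAt.comp z h.hasFDerivAt).fderiv]
  rfl

lemma fderiv_app {F : Type} [NormedAddCommGroup F] [NormedSpace ℝ F] {G : Type}
    [NormedAddCommGroup G] [NormedSpace ℝ G] {p : E → F →L[ℝ] G} {z : E}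
    (h : DifferentiableAt ℝ p z) (a : F) (v : E) :
    fderiv ℝ (fun z => p z a) z v = fderiv ℝ p z v a := by
  rw [show fderiv ℝ (fun z => p z a) z = _ from
    (h.hasFDerivAt.clm_apply (hasFDerivAt_const a z)).fderiv]
  simp

/-- `v` is a characteristic direction of `Y^Ω` at `z` -/
def ChO (Ω : E →L[ℝ] E →L[ℝ] ℝ) (Y : E → Submodule ℝ E) (z v : E) : Prop :=
  (∀ y ∈ Y z, Ω y v = 0) ∧ ∀ ζ : E → E, DifferentiableAt ℝ ζ z → (∀ᶠ y in 𝓝 z, ζ y ∈ Y y) →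
    ∀ w, (∀ y ∈ Y z, Ω y w = 0) → Ω (fderiv ℝ ζ z v) w = Ω (fderiv ℝ ζ z w) v

/-- BASIC FRAME: `d (i_u Ω)` is killed by all characteristic directions of `Y^Ω` -/
theorem basic (sk : ∀ v w, Ω v w = -Ω w v) (nd : ∀ v, (∀ w, Ω v w = 0) → v = 0)
    {Y : E → Submodule ℝ E} {O : Set E} (hO : IsOpen O) (hne : O.Nonempty)
    (hY : ∀ z ∈ O, SmAt ∞ Y z) :
    ∃ (r : ℕ) (U : Set E) (u : E → (Fin r → ℝ) →L[ℝ] E), IsOpen U ∧ U.Nonempty ∧ U ⊆ O ∧
      ContDiffOn ℝ ∞ u U ∧ ∀ z ∈ U, Function.Injective (u z) ∧ (u z).range = Y z ∧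
        ∀ v, ChO Ω Y z v → ∀ g w, Ω (fderiv ℝ u z v g) w = Ω (fderiv ℝ u z w g) v := by
  obtain ⟨z₀, hz₀⟩ := hne
  obtain ⟨r, e, he, he'⟩ : ∃ (r : ℕ) (e : E → (Fin r → ℝ) →L[ℝ] E), Cn ∞ e z₀ ∧
      ∀ᶠ y in 𝓝 z₀, Function.Injective (e y) ∧ (e y).range = Y y := ⟨_, (hY z₀ hz₀).frame⟩
  obtain ⟨U₀, h1, hU₀, hzU₀⟩ := eventually_nhds_iff.1
    ((Eventually.and he he').and (show ∀ᶠ y in 𝓝 z₀, y ∈ O from hO.mem_nhds hz₀))
  have hes : ContDiffOn ℝ ∞ e U₀ := fun y hy => (h1 y hy).1.1.contDiffWithinAt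
  let θ : E → E →L[ℝ] ((Fin r → ℝ) →L[ℝ] ℝ) := fun z =>
    ((ContinuousLinearMap.compL ℝ (Fin r → ℝ) E ℝ).flip (e z)) ∘L Ω.flip
  have hθa : ∀ z v g, θ z v g = Ω (e z g) v := fun _ _ _ => rfl
  have hθ : ContDiffOn ℝ ∞ θ U₀ :=
    contDiffOn_clm_apply.2 fun v => contDiffOn_clm_apply.2 fun g =>
      ((Ω.flip v).contDiff.comp_contDiffOn (hes.clm_apply (contDiffOn_const (c := g))))
  have hs : ∀ z ∈ U₀, Function.Surjective (θ z) := fun z hz l => by
    obtain ⟨k, hk⟩ := (e z : (Fin r → ℝ) →ₗ[ℝ] E).exists_leftInverse_of_injective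
      (LinearMap.ker_eq_bot.2 (h1 z hz).1.2.1)
    obtain ⟨y, hy⟩ := om_surj nd (l ∘L LinearMap.toContinuousLinearMap k)
    refine ⟨-y, ContinuousLinearMap.ext fun g => ?_⟩
    rw [hθa, sk, map_neg Ω, hy]
    have := LinearMap.congr_fun hk g
    simp only [LinearMap.comp_apply, ContinuousLinearMap.coe_coe, LinearMap.id_apply] at this
    simp [this]
  obtain ⟨U, A, hU, hUne, hUU, hA, hAA⟩ := bas E _ θ U₀ hU₀ ⟨z₀, hzU₀⟩ hθ hs
  let B : E → (Fin r → ℝ) →L[ℝ] (Fin r → ℝ) := fun z =>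
    ContinuousLinearMap.pi fun i => A z (ContinuousLinearMap.proj i)
  have hB : ∀ z (l : (Fin r → ℝ) →L[ℝ] ℝ) g, l (B z g) = A z l g := fun z l g => by
    have e1 : l = ∑ i, l (Pi.single i 1) • ContinuousLinearMap.proj i := by
      ext x
      conv_lhs => rw [pi_eq_sum_univ' x, map_sum]
      simp [mul_comm]
    conv_rhs => rw [e1]
    conv_lhs => rw [e1]
    simp [B]
  have hBs : ContDiffOn ℝ ∞ B U := contDiffOn_clm_apply.2 fun g => contDiffOn_pi.2 fun i =>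
    (hA.clm_apply (contDiffOn_const (c := ContinuousLinearMap.proj i))).clm_apply
      (contDiffOn_const (c := g))
  have hBi : ∀ z ∈ U, Function.Injective (B z) := fun z hz =>
    (injective_iff_map_eq_zero _).2 fun g hg => by
      ext i
      obtain ⟨l, hl⟩ := (LinearMap.injective_iff_surjective (f := (A z).toLinearMap)).1
        (hAA z hz).1 (ContinuousLinearMap.proj i)
      have := hB z l g
      rw [hg, map_zero, show A z l = _ from hl] at this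
      exact this.symm
  have hu : ContDiffOn ℝ ∞ (fun z => e z ∘L B z) U := (hes.mono hUU).clm_comp hBs
  refine ⟨r, U, fun z => e z ∘L B z, hU, hUne, fun z hz => (h1 z (hUU hz)).2, hu,
    fun z hz => ⟨(h1 z (hUU hz)).1.2.1.comp (hBi z hz), ?_, fun v hv g w => ?_⟩⟩
  · rw [← (h1 z (hUU hz)).1.2.2]
    refine le_antisymm (by rintro _ ⟨g, rfl⟩; exact ⟨_, rfl⟩) ?_
    rintro _ ⟨g, rfl⟩
    obtain ⟨g', rfl⟩ := (LinearMap.injective_iff_surjective (f := (B z : _ →ₗ[ℝ] _))).1 (hBi z hz) g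
    exact ⟨g', rfl⟩
  · have hz0 := hU₀.mem_nhds (hUU hz)
    have de := (hes.contDiffAt hz0).differentiableAt (by simp)
    have dθ := (hθ.contDiffAt hz0).differentiableAt (by simp)
    have hr : ∀ y ∈ U₀, ∀ g, e y g ∈ Y y := fun y hy g => (h1 y hy).1.2.2 ▸ ⟨g, rfl⟩
    have hd : ∀ {ϑ : E → E →L[ℝ] ((Fin r → ℝ) →L[ℝ] ℝ)} {ε : E → (Fin r → ℝ) →L[ℝ] E},
        DifferentiableAt ℝ ϑ z → DifferentiableAt ℝ ε z → (∀ y v g, ϑ y v g = Ω (ε y g) v) →
        ∀ v w g, dF ϑ z v w g = Ω (fderiv ℝ ε z v g) w - Ω (fderiv ℝ ε z w g) v := by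
      intro ϑ ε h1 h2 h3
      have : ∀ v w g, fderiv ℝ ϑ z v w g = Ω (fderiv ℝ ε z v g) w := fun v w g => by
        rw [← fderiv_app h1, ← fderiv_app (h1.clm_apply (differentiableAt_const w)),
          ← fderiv_app h2]
        simp only [h3]
        rw [show fderiv ℝ (fun y => Ω (ε y g) w) z = _ from ((Ω.flip w).hasFDerivAt.comp z
          (h2.clm_apply (differentiableAt_const g)).hasFDerivAt).fderiv]
        rfl
      intro v w g
      simp [dF, this]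
    have hC : Ch θ z v := ⟨ContinuousLinearMap.ext fun g => hv.1 _ (hr z (hUU hz) g), fun w hw => by
      ext1 g
      have := hv.2 (fun y => e y g) (de.clm_apply (differentiableAt_const g))
        (by filter_upwards [hz0] with y hy using hr y hy g) w fun y hy => by
          rw [← (h1 z (hUU hz)).1.2.2] at hy
          obtain ⟨g, rfl⟩ := hy
          exact (hθa z w g).symm.trans (by rw [hw]; rfl)
      rw [fderiv_app de, fderiv_app de] at this
      rw [hd dθ de hθa, this, sub_self]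
      rfl⟩
    have := congrArg (fun l => l g) ((hAA z hz).2 v hC w)
    simp only [zero_apply] at this
    rwa [hd (ε := fun z => e z ∘L B z)
      (((hA.contDiffAt (hU.mem_nhds hz)).differentiableAt (by simp)).clm_comp dθ)
      ((hu.contDiffAt (hU.mem_nhds hz)).differentiableAt (by simp))
      (fun y v g => (hB y _ g).symm), sub_eq_zero] at this

/-- a Lagrangian foliation `Es` with smooth leaves and a pseudogroup `R` of symplectic germs -/
structure Sys (Ω : E →L[ℝ] E →L[ℝ] ℝ) (W : Set E) (Es : E → Submodule ℝ E)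
    (R : E → (E → E) → Prop) : Prop where
  sk : ∀ v w, Ω v w = -Ω w v
  nd : ∀ v, (∀ w, Ω v w = 0) → v = 0
  op : IsOpen W
  lag : ∀ z ∈ W, ∀ v, v ∈ Es z ↔ ∀ w ∈ Es z, Ω w v = 0
  leaf : ∀ z ∈ W, ∃ σ : E → E, ContDiffAt ℝ 2 σ z ∧ σ z = z ∧
    (∀ v ∈ Es z, fderiv ℝ σ z v = v) ∧ ∀ᶠ x in 𝓝 z, ∀ ξ, fderiv ℝ σ x ξ ∈ Es (σ x)
  smooth : ∀ z T, R z T → ContDiffAt ℝ ∞ T z
  ev : ∀ z T, R z T → ∀ᶠ y in 𝓝 z, R y T
  inv : ∀ z T, R z T → ∃ T', R (T z) T' ∧ T' ∘ T =ᶠ[𝓝 z] id ∧ T ∘ T' =ᶠ[𝓝 (T z)] id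
  sp : ∀ z T, R z T → ∀ v w, Ω (fderiv ℝ T z v) (fderiv ℝ T z w) = Ω v w

/-- smooth invariant bundles between `Y` and `Es` -/
structure Cl (W : Set E) (Es : E → Submodule ℝ E) (R : E → (E → E) → Prop)
    (Y : E → Submodule ℝ E) (O : Set E) (I : E → Submodule ℝ E) : Prop where
  op : IsOpen O
  ne : O.Nonempty
  sub : O ⊆ W
  sm : ∀ z ∈ O, SmAt ∞ I z
  le1 : ∀ z ∈ O, Y z ≤ I z
  le2 : ∀ z ∈ O, I z ≤ Es z
  map : ∀ z ∈ O, ∀ T, R z T → T z ∈ O → ∀ v ∈ I z, fderiv ℝ T z v ∈ I (T z)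

variable {W O : Set E} {Es Y I : E → Submodule ℝ E} {R : E → (E → E) → Prop}

lemma Cl.mono (h : Cl W Es R Y O I) {V : Set E} (hV : IsOpen V) (hne : V.Nonempty) (hs : V ⊆ O) :
    Cl W Es R Y V I :=
  ⟨hV, hne, hs.trans h.sub, fun z hz => h.sm z (hs hz), fun z hz => h.le1 z (hs hz),
    fun z hz => h.le2 z (hs hz), fun z hz T a b => h.map z (hs hz) T a (hs b)⟩

/-- `d (i_ζ Ω)` vanishes on the leaves -/
lemma Sys.leaf0 (S : Sys Ω W Es R) {z : E} (hz : z ∈ W) {ζ : E → E} (hd : DifferentiableAt ℝ ζ z)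
    (hζ : ∀ᶠ y in 𝓝 z, ζ y ∈ Es y) {v w : E} (hv : v ∈ Es z) (hw : w ∈ Es z) :
    Ω (fderiv ℝ ζ z v) w = Ω (fderiv ℝ ζ z w) v := by
  obtain ⟨σ, h1, h2, h3, h4⟩ := S.leaf z hz
  have hc : Tendsto σ (𝓝 z) (𝓝 z) := by simpa [ContinuousAt, h2] using h1.continuousAt
  have := dF_pull (θ := fun y => Ω (ζ y)) h1
    (Ω.differentiableAt.comp _ (by rw [h2]; exact hd)) v w
  rw [dF_congr (θ' := fun _ => 0), h2, h3 v hv, h3 w hw, dF_om hd] at this
  · exact sub_eq_zero.1 (this.symm.trans (by simp [dF]))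
  · filter_upwards [h4, hc.eventually hζ, hc.eventually (S.op.mem_nhds hz)] with x a b c
    ext ξ
    exact (S.lag _ c _).1 (a ξ) _ b

/-- the directions `w ⊥ I` killed by all `i_v d (i_ζ Ω)` -/
def KK (Ω : E →L[ℝ] E →L[ℝ] ℝ) (I : E → Submodule ℝ E) (z : E) : Submodule ℝ E where
  carrier := {w | (∀ y ∈ I z, Ω y w = 0) ∧ ∀ ζ : E → E, DifferentiableAt ℝ ζ z →
    (∀ᶠ y in 𝓝 z, ζ y ∈ I y) → ∀ v ∈ I z, Ω (fderiv ℝ ζ z v) w = Ω (fderiv ℝ ζ z w) v}
  add_mem' := fun a b => ⟨fun y hy => by simp [a.1 y hy, b.1 y hy],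
    fun ζ h1 h2 v hv => by simp [a.2 ζ h1 h2 v hv, b.2 ζ h1 h2 v hv]⟩
  zero_mem' := ⟨by simp, by simp⟩
  smul_mem' := fun c w a => ⟨fun y hy => by simp [a.1 y hy],
    fun ζ h1 h2 v hv => by simp [a.2 ζ h1 h2 v hv]⟩

/-- `Ω`-orthogonal -/
def prp (Ω : E →L[ℝ] E →L[ℝ] ℝ) (K : Submodule ℝ E) : Submodule ℝ E where
  carrier := {v | ∀ y ∈ K, Ω y v = 0}
  add_mem' := fun h h' y hy => by rw [map_add, h y hy, h' y hy, add_zero]
  zero_mem' := fun y _ => map_zero _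
  smul_mem' := fun c v h y hy => by rw [map_smul, h y hy, smul_zero]

lemma Sys.es_le (S : Sys Ω W Es R) (h : Cl W Es R Y O I) {z : E} (hz : z ∈ O) :
    Es z ≤ KK Ω I z := fun w hw =>
  ⟨fun y hy => (S.lag z (h.sub hz) w).1 hw y (h.le2 z hz hy), fun ζ h1 h2 v hv =>
    S.leaf0 (h.sub hz) h1 (by filter_upwards [h2, h.op.mem_nhds hz] with y a b using h.le2 y b a)
      (h.le2 z hz hv) hw⟩

lemma Sys.cut (S : Sys Ω W Es R) (h : Cl W Es R Y O I) {z : E} (hz : z ∈ O) :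
    Cut ∞ (KK Ω I) z := by
  obtain ⟨p, hp, hpI⟩ := h.sm z hz
  have hD : Cn ∞ (fderiv ℝ p) z := hp.mono fun y a => a.fderiv_right (by simp)
  let μ : E → E →L[ℝ] E →L[ℝ] E →L[ℝ] ℝ := fun y =>
    (ContinuousLinearMap.compL ℝ E (E →L[ℝ] E) (E →L[ℝ] ℝ)).flip (fderiv ℝ p y) ∘L
      ContinuousLinearMap.compL ℝ E E ℝ ∘L Ω.flip -
    ((ContinuousLinearMap.compL ℝ E (E →L[ℝ] E) (E →L[ℝ] ℝ)).flip (fderiv ℝ p y) ∘L
      ContinuousLinearMap.compL ℝ E E ℝ ∘L Ω.flip).flip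
  have hμ : ∀ y w v a, μ y w v a = Ω (fderiv ℝ p y v a) w - Ω (fderiv ℝ p y w a) v :=
    fun _ _ _ _ => rfl
  let K1 : E → Submodule ℝ E := fun y => prp Ω (I y)
  let K2 : E → Submodule ℝ E := fun y =>
    { carrier := {w | ∀ v ∈ I y, ∀ a ∈ I y, μ y w v a = 0}
      add_mem' := fun a b v hv c hc => by simp [a v hv c hc, b v hv c hc]
      zero_mem' := by simp
      smul_mem' := fun c w a v hv d hd => by simp [a v hv d hd] }
  have c1 : Cut ∞ K1 z := Cut.ann (h.sm z hz).gen (μ := fun _ => Ω.flip) (Cn.const _)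
    (Eventually.of_forall fun _ _ => Iff.rfl)
  have c2 : Cut ∞ K2 z := Cut.ann₂ (h.sm z hz).gen (h.sm z hz).gen (μ := μ) (fun w v a => by
    simp only [hμ]
    exact hD.mono fun y b => ((Ω.flip w).contDiff.contDiffAt.comp y
      ((b.clm_apply contDiffAt_const).clm_apply contDiffAt_const)).sub
      ((Ω.flip v).contDiff.contDiffAt.comp y
        ((b.clm_apply contDiffAt_const).clm_apply contDiffAt_const)))
    (Eventually.of_forall fun _ _ => Iff.rfl)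
  refine (c1.inf c2).congr ?_
  filter_upwards [hp, hpI.eventually_nhds, h.op.mem_nhds hz] with y a b c
  have dp := a.differentiableAt (by simp)
  ext w
  refine and_congr_right fun hw => ⟨fun k v hv a ha => ?_, fun k ζ h1 h2 v hv => ?_⟩
  · have := k (fun y => p y a) (dp.clm_apply (differentiableAt_const a)) (b.mono fun y c => c.1 a)
      v hv
    rw [fderiv_app dp, fderiv_app dp] at this
    rw [hμ, this, sub_self]
  · have e : ζ =ᶠ[𝓝 y] fun y => p y (ζ y) := by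
      filter_upwards [b, h2] with x c d using (c.2 _ d).symm
    have e2 : ∀ x, fderiv ℝ ζ y x = fderiv ℝ p y x (ζ y) + p y (fderiv ℝ ζ y x) := fun x => by
      conv_lhs => rw [e.fderiv_eq, show fderiv ℝ (fun y => p y (ζ y)) y = _ from
        (dp.hasFDerivAt.clm_apply h1.hasFDerivAt).fderiv]
      simp [add_comm]
    have := k v hv _ h2.self_of_nhds
    rw [hμ, sub_eq_zero] at this
    rw [e2 v, e2 w, map_add, map_add, add_apply, add_apply,
      this, hw _ (b.self_of_nhds.1 _),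
      (S.lag y (h.sub c) v).1 (h.le2 y c hv) _ (h.le2 y c (b.self_of_nhds.1 _))]

lemma Sys.back (S : Sys Ω W Es R) (h : Cl W Es R Y O I) {z : E} (hz : z ∈ O) {T : E → E}
    (hT : R z T) (hTz : T z ∈ O) {w : E} (hw : fderiv ℝ T z w ∈ KK Ω I (T z)) : w ∈ KK Ω I z := by
  refine ⟨fun y hy => by rw [← S.sp z T hT, hw.1 _ (h.map z hz T hT hTz y hy)],
    fun ζ h1 h2 v hv => ?_⟩
  obtain ⟨T', k1, k2, k3⟩ := S.inv z T hT
  have e0 : T' (T z) = z := k2.self_of_nhds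
  have sT := S.smooth z T hT
  have sT' := (S.smooth _ T' k1).differentiableAt (by simp)
  have cT' : Tendsto T' (𝓝 (T z)) (𝓝 z) := by simpa [ContinuousAt, e0] using sT'.continuousAt
  have dζ : DifferentiableAt ℝ (fun y => fderiv ℝ T (T' y) (ζ (T' y))) (T z) := by
    have : DifferentiableAt ℝ (fun x => fderiv ℝ T x (ζ x)) (T' (T z)) := by
      rw [e0]
      exact ((sT.fderiv_right (m := 1) two_le).differentiableAt (by simp)).clm_apply h1
    exact this.comp _ sT'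
  have := hw.2 _ dζ (by
    filter_upwards [cT'.eventually h2, cT'.eventually (h.op.mem_nhds hz),
      cT'.eventually (S.ev z T hT), k3, h.op.mem_nhds hTz] with y a b c d e
    have d' : T (T' y) = y := d
    simpa [d'] using h.map _ b T c (by rwa [d']) _ a) _ (h.map z hz T hT hTz v hv)
  rw [← sub_eq_zero, ← dF_om dζ, ← dF_pull (θ := fun y => Ω (fderiv ℝ T (T' y) (ζ (T' y))))
    (sT.of_le two_le') (Ω.differentiableAt.comp _ dζ),
    dF_congr (θ' := fun y => Ω (ζ y)), dF_om h1, sub_eq_zero] at this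
  · exact this
  · filter_upwards [k2, S.ev z T hT] with y a b
    have a' : T' (T y) = y := a
    ext x
    simp [a', S.sp y T b]

lemma Sys.step (S : Sys Ω W Es R) (h : Cl W Es R Y O I) :
    ∃ V, V ⊆ O ∧ Cl W Es R I V fun z => prp Ω (KK Ω I z) := by
  obtain ⟨V₁, a1, a2, a3, a4⟩ := Cut.shrink h.op h.ne fun y hy => S.cut h hy
  obtain ⟨V, b1, b2, b3, b4⟩ := Cut.shrink (F := fun z => prp Ω (KK Ω I z)) a1 a2 fun y hy =>
    Cut.ann (a4 y hy).gen (μ := fun _ => Ω.flip) (Cn.const _)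
      (Eventually.of_forall fun _ _ => Iff.rfl)
  have hs := b3.trans a3
  refine ⟨V, hs, b1, b2, hs.trans h.sub, b4, fun z _ y hy k hk => ?_, fun z hz y hy => ?_,
    fun z hz T hT hTz y hy k hk => ?_⟩
  · rw [S.sk, hk.1 y hy, neg_zero]
  · exact (S.lag z (h.sub (hs hz)) y).2 fun w hw => hy w (S.es_le h (hs hz) hw)
  · obtain ⟨w, rfl⟩ := (LinearMap.injective_iff_surjective (f := (fderiv ℝ T z : E →ₗ[ℝ] E))).1
      ((injective_iff_map_eq_zero _).2 fun v hv => S.nd v fun w => by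
        rw [← S.sp z T hT, show fderiv ℝ T z v = 0 from hv]; simp) k
    exact (S.sp z T hT w y).trans (hy w (S.back h (hs hz) hT (hs hTz) hk))

/-- THE MAXIMAL BUNDLE is characteristic for its orthogonal -/
theorem Sys.maxI (S : Sys Ω W Es R) (h : Cl W Es R Y O Y) :
    ∃ V I, V ⊆ O ∧ Cl W Es R Y V I ∧ ∀ z ∈ V, ∀ v ∈ I z, ChO Ω I z v := by
  obtain ⟨z₁, hz₁⟩ := h.ne
  obtain ⟨⟨V, I, z⟩, ⟨h1, h2, h3⟩, hm⟩ := exists_max
    (s := {q : Set E × (E → Submodule ℝ E) × E | q.1 ⊆ O ∧ Cl W Es R Y q.1 q.2.1 ∧ q.2.2 ∈ q.1})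
    ⟨(O, Y, z₁), Subset.rfl, h, hz₁⟩ (fun q => finrank ℝ (q.2.1 q.2.2)) fun q =>
      (q.2.1 q.2.2).finrank_le
  obtain ⟨V₁, a1, a2, a3, a4, -⟩ := (h2.sm z h3).shrink h2.op h3
  have c1 := h2.mono a1 ⟨z, a2⟩ a3
  obtain ⟨V₂, b1, b2⟩ := S.step c1
  have c2 := c1.mono b2.op b2.ne b1
  have hs := (b1.trans a3).trans h1
  refine ⟨V₂, I, hs, c2, fun y hy v hv => ?_⟩
  have e : I y = prp Ω (KK Ω I y) := Submodule.eq_of_le_of_finrank_le (b2.le1 y hy) (by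
    rw [a4 y (b1 hy)]
    exact hm (V₂, fun z => prp Ω (KK Ω I z), y) ⟨hs, ⟨b2.op, b2.ne, b2.sub, b2.sm,
      fun z hz => (c2.le1 z hz).trans (b2.le1 z hz), b2.le2, b2.map⟩, hy⟩)
  refine ⟨fun x hx => (S.lag y (c2.sub hy) v).1 (c2.le2 y hy hv) x (c2.le2 y hy hx),
    fun ζ k1 k2 w hw => ?_⟩
  have : w ∈ KK Ω I y := mem_of_perp S.sk S.nd fun x hx => hw x (e ▸ hx)
  exact this.2 ζ k1 k2 v hv

end Crest.Agent.N221.Fr
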